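import Mathlib

/-!
# P209: the cells of the edgewise subdivision of a simplex
-/

open Matrix

namespace P209

variable {n m : ℕ}

/-- upper triangular matrix of ones -/
def Gm (n : ℕ) : Matrix (Fin n) (Fin n) ℤ := Matrix.of fun i j => if i ≤ j then 1 else 0

theorem det_Gm (n : ℕ) : (Gm n).det = 1 := by
  rw [Matrix.det_of_isUpperTriangular]
  · simp [Gm]
  · intro i j h
    simp only [Gm, Matrix.of_apply]
    rw [if_neg]
    exact not_le.2 h

theorem isUnit_det_Gm (n : ℕ) : IsUnit (Gm n).det := by rw [det_Gm]; exact isUnit_one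

/-- the order of the fractional parts belonging to the word `c` -/
def sg (c : Fin n → Fin m) : Equiv.Perm (Fin n) := Tuple.sort (fun t => OrderDual.toDual (c t))

noncomputable def Am (c : Fin n → Fin m) : Matrix (Fin n) (Fin n) ℤ :=
  (Gm n)⁻¹ * ((sg c).permMatrix ℤ * Gm n)

noncomputable def Ainv (c : Fin n → Fin m) : Matrix (Fin n) (Fin n) ℤ :=
  (Gm n)⁻¹ * ((sg c)⁻¹.permMatrix ℤ * Gm n)

theorem Ainv_mul (c : Fin n → Fin m) : Ainv c * Am c = 1 := by
  unfold Ainv Am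
  have h1 : Gm n * ((Gm n)⁻¹ * ((sg c).permMatrix ℤ * Gm n)) = (sg c).permMatrix ℤ * Gm n :=
    Matrix.mul_nonsing_inv_cancel_left _ _ (isUnit_det_Gm n)
  rw [Matrix.mul_assoc, Matrix.mul_assoc, h1, ← Matrix.mul_assoc ((sg c)⁻¹.permMatrix ℤ),
    ← Matrix.permMatrix_mul, mul_inv_cancel, Matrix.permMatrix_one, Matrix.one_mul,
    Matrix.nonsing_inv_mul _ (isUnit_det_Gm n)]

/-- real matrix of an integer matrix -/
def rm (A : Matrix (Fin n) (Fin n) ℤ) : Matrix (Fin n) (Fin n) ℝ := A.map (Int.cast : ℤ → ℝ)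

theorem rm_mul (A B : Matrix (Fin n) (Fin n) ℤ) : rm (A * B) = rm A * rm B := by
  unfold rm
  exact Matrix.map_mul (f := Int.castRingHom ℝ)

theorem rm_one : rm (1 : Matrix (Fin n) (Fin n) ℤ) = 1 := by
  unfold rm
  exact Matrix.map_one _ (by simp) (by simp)

/-- the translation part of the cell `c` of scale `b` -/
noncomputable def vc (b : ℝ) (c : Fin n → Fin m) : Fin n → ℝ :=
  rm (Gm n)⁻¹ *ᵥ (fun j => b * ((c (sg c j) : ℕ) : ℝ))

/-- the cell map -/
noncomputable def yc (b : ℝ) (c : Fin n → Fin m) (x : Fin n → ℝ) : Fin n → ℝ :=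
  rm (Am c) *ᵥ x + vc b c

theorem rm_Gm_mulVec (x : Fin n → ℝ) (j : Fin n) :
    (rm (Gm n) *ᵥ x) j = ∑ l with j ≤ l, x l := by
  simp only [rm, Gm, Matrix.mulVec, dotProduct, Matrix.map_apply, Matrix.of_apply]
  rw [Finset.sum_filter]
  apply Finset.sum_congr rfl
  intro l _
  split_ifs <;> simp

theorem Gy (b : ℝ) (c : Fin n → Fin m) (x : Fin n → ℝ) (j : Fin n) :
    ∑ l with j ≤ l, yc b c x l = ∑ l with sg c j ≤ l, x l + b * ((c (sg c j) : ℕ) : ℝ) := by
  rw [← rm_Gm_mulVec]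
  unfold yc vc Am
  have h1 : rm (Gm n) * rm ((Gm n)⁻¹ * ((sg c).permMatrix ℤ * Gm n)) =
      rm ((sg c).permMatrix ℤ) * rm (Gm n) := by
    rw [← rm_mul, ← rm_mul]
    congr 1
    exact Matrix.mul_nonsing_inv_cancel_left _ _ (isUnit_det_Gm n)
  have h2 : rm (Gm n) * rm (Gm n)⁻¹ = 1 := by
    rw [← rm_mul, Matrix.mul_nonsing_inv _ (isUnit_det_Gm n), rm_one]
  rw [Matrix.mulVec_add, Matrix.mulVec_mulVec, Matrix.mulVec_mulVec, h1, h2, Matrix.one_mulVec,
    ← Matrix.mulVec_mulVec]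
  have h3 : rm ((sg c).permMatrix ℤ) = (sg c).permMatrix ℝ := by
    unfold rm
    ext i j
    simp [Equiv.Perm.permMatrix, PEquiv.toMatrix_apply]
  rw [h3, Matrix.permMatrix_mulVec]
  simp only [Pi.add_apply, Function.comp]
  rw [rm_Gm_mulVec]

theorem sum_ge_succ (y : Fin n → ℝ) (j : Fin n) (h : (j : ℕ) + 1 < n) :
    ∑ l with j ≤ l, y l = y j + ∑ l with (⟨(j : ℕ) + 1, h⟩ : Fin n) ≤ l, y l := by
  have e : (Finset.univ.filter fun l : Fin n => j ≤ l) =
      insert j (Finset.univ.filter fun l : Fin n => (⟨(j : ℕ) + 1, h⟩ : Fin n) ≤ l) := by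
    ext l
    simp only [Finset.mem_filter, Finset.mem_univ, true_and, Finset.mem_insert, Fin.le_def,
      Fin.ext_iff]
    omega
  rw [e, Finset.sum_insert]
  simp [Fin.le_def]

theorem sum_ge_last (y : Fin n → ℝ) (j : Fin n) (h : ¬ (j : ℕ) + 1 < n) :
    ∑ l with j ≤ l, y l = y j := by
  have e : (Finset.univ.filter fun l : Fin n => j ≤ l) = {j} := by
    ext l
    simp only [Finset.mem_filter, Finset.mem_univ, true_and, Finset.mem_singleton, Fin.le_def,
      Fin.ext_iff]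
    omega
  rw [e, Finset.sum_singleton]

/-- the open simplex of size `b` -/
def Simp (n : ℕ) (b : ℝ) : Set (Fin n → ℝ) := {x | (∀ j, 0 < x j) ∧ ∑ j, x j < b}

theorem g_pos {x : Fin n → ℝ} (hx : ∀ j, 0 < x j) (t : Fin n) : 0 < ∑ l with t ≤ l, x l :=
  Finset.sum_pos (fun l _ => hx l) ⟨t, by simp⟩

theorem g_lt {x : Fin n → ℝ} {b : ℝ} (hx : x ∈ Simp n b) (t : Fin n) :
    ∑ l with t ≤ l, x l < b := by
  refine lt_of_le_of_lt ?_ hx.2
  exact Finset.sum_le_sum_of_subset_of_nonneg (Finset.filter_subset _ _)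
    fun l _ _ => (hx.1 l).le

theorem g_anti {x : Fin n → ℝ} (hx : ∀ j, 0 < x j) :
    StrictAnti fun t : Fin n => ∑ l with t ≤ l, x l := by
  intro t t' h
  apply Finset.sum_lt_sum_of_subset (i := t)
  · intro l hl
    simp only [Finset.mem_filter, Finset.mem_univ, true_and] at hl ⊢
    exact h.le.trans hl
  · simp
  · simpa using h
  · exact hx t
  · intro l _ _; exact (hx l).le

theorem sg_spec (c : Fin n → Fin m) {i j : Fin n} (h : i < j) :
    c (sg c j) < c (sg c i) ∨ (c (sg c j) = c (sg c i) ∧ sg c i < sg c j) := by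
  have h1 := (Tuple.eq_sort_iff (f := fun t => OrderDual.toDual (c t)) (σ := sg c)).1 rfl
  have h2 : c (sg c j) ≤ c (sg c i) := h1.1 h.le
  rcases h2.lt_or_eq with h3 | h3
  · exact Or.inl h3
  · refine Or.inr ⟨h3, h1.2 i j h ?_⟩
    show OrderDual.toDual (c (sg c i)) = OrderDual.toDual (c (sg c j))
    rw [h3]

theorem S_anti {b : ℝ} (hb : 0 < b) (c : Fin n → Fin m) {x : Fin n → ℝ} (hx : x ∈ Simp n b) :
    StrictAnti fun j : Fin n => ∑ l with j ≤ l, yc b c x l := by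
  intro i j h
  show ∑ l with j ≤ l, yc b c x l < ∑ l with i ≤ l, yc b c x l
  rw [Gy, Gy]
  rcases sg_spec c h with h1 | ⟨h1, h2⟩
  · have h3 := g_lt hx (sg c j)
    have h4 := g_pos hx.1 (sg c i)
    have h5 : ((c (sg c j) : ℕ) : ℝ) + 1 ≤ ((c (sg c i) : ℕ) : ℝ) := by
      have : (c (sg c j) : ℕ) + 1 ≤ (c (sg c i) : ℕ) := h1
      exact_mod_cast this
    nlinarith
  · rw [h1]
    have := g_anti hx.1 h2
    simp only at this
    linarith

theorem yc_pos {b : ℝ} (hb : 0 < b) (c : Fin n → Fin m) {x : Fin n → ℝ} (hx : x ∈ Simp n b)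
    (j : Fin n) : 0 < yc b c x j := by
  by_cases h : (j : ℕ) + 1 < n
  · have h1 := sum_ge_succ (yc b c x) j h
    have h2 := S_anti hb c hx (show j < ⟨(j : ℕ) + 1, h⟩ from Fin.lt_def.2 (Nat.lt_succ_self _))
    simp only at h2
    linarith
  · have h1 := sum_ge_last (yc b c x) j h
    rw [← h1, Gy]
    have := g_pos hx.1 (sg c j)
    positivity

theorem sum_eq_zero_ge (y : Fin n → ℝ) (hn : 0 < n) :
    ∑ l, y l = ∑ l with (⟨0, hn⟩ : Fin n) ≤ l, y l := by
  congr 1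
  ext l
  simp [Fin.le_def]

theorem yc_sum_lt {b : ℝ} (hb : 0 < b) (c : Fin n → Fin m) {x : Fin n → ℝ} (hx : x ∈ Simp n b)
    (hn : 0 < n) : ∑ j, yc b c x j < b * m := by
  rw [sum_eq_zero_ge _ hn, Gy]
  have h3 := g_lt hx (sg c ⟨0, hn⟩)
  have h5 : ((c (sg c ⟨0, hn⟩) : ℕ) : ℝ) + 1 ≤ m := by
    have : (c (sg c ⟨0, hn⟩) : ℕ) + 1 ≤ m := (c (sg c ⟨0, hn⟩)).2
    exact_mod_cast this
  nlinarith

theorem yc_sum_gt {b : ℝ} (hb : 0 < b) (c : Fin n → Fin m) {x : Fin n → ℝ} (hx : x ∈ Simp n b)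
    (hn : 0 < n) {t : Fin n} (ht : (c t : ℕ) + 1 = m) : b * ((m : ℝ) - 1) < ∑ j, yc b c x j := by
  rw [sum_eq_zero_ge _ hn, Gy]
  have h3 := g_pos hx.1 (sg c ⟨0, hn⟩)
  have h4 : (c t : ℕ) ≤ (c (sg c ⟨0, hn⟩) : ℕ) := by
    obtain ⟨j, rfl⟩ := (sg c).surjective t
    rcases Nat.eq_zero_or_pos (j : ℕ) with h | h
    · have : j = ⟨0, hn⟩ := Fin.ext h
      rw [this]
    · rcases sg_spec c (show (⟨0, hn⟩ : Fin n) < j from Fin.lt_def.2 h) with h1 | ⟨h1, -⟩
      · exact le_of_lt h1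
      · rw [h1]
  have h5 : (m : ℝ) - 1 ≤ ((c (sg c ⟨0, hn⟩) : ℕ) : ℝ) := by
    have : m ≤ (c (sg c ⟨0, hn⟩) : ℕ) + 1 := by omega
    have : (m : ℝ) ≤ ((c (sg c ⟨0, hn⟩) : ℕ) : ℝ) + 1 := by exact_mod_cast this
    linarith
  nlinarith

theorem yc_disj {b : ℝ} (hb : 0 < b) {c c' : Fin n → Fin m} {x x' : Fin n → ℝ}
    (hx : x ∈ Simp n b) (hx' : x' ∈ Simp n b) (h : yc b c x = yc b c' x') : c = c' := by
  have h1 : ∀ j, ∑ l with sg c j ≤ l, x l + b * ((c (sg c j) : ℕ) : ℝ) =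
      ∑ l with sg c' j ≤ l, x' l + b * ((c' (sg c' j) : ℕ) : ℝ) := by
    intro j
    rw [← Gy, ← Gy, h]
  have h2 : ∀ j, (c (sg c j) : ℕ) = (c' (sg c' j) : ℕ) := by
    intro j
    have a1 := g_lt hx (sg c j)
    have a2 := g_pos hx.1 (sg c j)
    have a3 := g_lt hx' (sg c' j)
    have a4 := g_pos hx'.1 (sg c' j)
    have a5 := h1 j
    rcases lt_trichotomy (c (sg c j) : ℕ) (c' (sg c' j) : ℕ) with h | h | h
    · exfalso
      have : ((c (sg c j) : ℕ) : ℝ) + 1 ≤ ((c' (sg c' j) : ℕ) : ℝ) := by exact_mod_cast h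
      nlinarith
    · exact h
    · exfalso
      have : ((c' (sg c' j) : ℕ) : ℝ) + 1 ≤ ((c (sg c j) : ℕ) : ℝ) := by exact_mod_cast h
      nlinarith
  have h3 : ∀ j, ∑ l with sg c j ≤ l, x l = ∑ l with sg c' j ≤ l, x' l := by
    intro j
    have := h1 j
    rw [h2 j] at this
    linarith
  have h4 : Monotone ((sg c).symm.trans (sg c')) := by
    intro i j hij
    rcases hij.lt_or_eq with hij | rfl
    · have h5 := g_anti hx.1 hij
      simp only at h5
      have e1 := h3 ((sg c).symm i)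
      have e2 := h3 ((sg c).symm j)
      rw [Equiv.apply_symm_apply] at e1 e2
      by_contra h6
      have h6' : sg c' ((sg c).symm j) < sg c' ((sg c).symm i) := not_le.1 h6
      have h7 := g_anti hx'.1 h6'
      simp only at h7
      linarith
    · exact le_rfl
  have h5 : sg c = sg c' := by
    have h6 := (Equiv.Perm.monotone_iff ((sg c).symm.trans (sg c'))).1 h4
    ext j
    have h7 : ((sg c).symm.trans (sg c')) (sg c j) = sg c j := by rw [h6]; rfl
    simp at h7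
    rw [h7]
  funext t
  obtain ⟨j, rfl⟩ := (sg c).surjective t
  apply Fin.ext
  rw [h2 j, h5]

end P209
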