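import Mathlib

/-!
# P209: symplectic packings of a ball by balls. Definitions.
-/

open scoped ContDiff

namespace P209

variable {n : ℕ}

/-- the standard symplectic form `ω₀ = ∑ dx_j ∧ dy_j` on `ℂ^n`, coordinates `z_j = x_j + i y_j` -/
noncomputable def omega (u v : Fin n → ℂ) : ℝ :=
  ∑ j, ((u j).re * (v j).im - (u j).im * (v j).re)

/-- the closed ball `B^{2n}(R)` of capacity `R`: the points with `π ∑ |z_j|^2 ≤ R` -/
def capBall (n : ℕ) (R : ℝ) : Set (Fin n → ℂ) :=
  {z | Real.pi * ∑ j, ‖z j‖ ^ 2 ≤ R}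

/-- `f` gives a symplectic embedding of the closed ball `B^{2n}(r)`: on an open neighbourhood `U`
of the ball, `f` is smooth, a homeomorphism onto an open subset, and it pulls `ω₀` back to `ω₀` -/
def IsSymplecticBallEmbedding (r : ℝ) (f : (Fin n → ℂ) → (Fin n → ℂ)) : Prop :=
  ∃ U : Set (Fin n → ℂ), IsOpen U ∧ capBall n r ⊆ U ∧ ContDiffOn ℝ ∞ f U ∧
    Topology.IsOpenEmbedding (U.domRestrict f) ∧
    ∀ z ∈ U, ∀ u v, omega (fderiv ℝ f z u) (fderiv ℝ f z v) = omega u v

/-- `B^{2n}(r_1) ⊔ … ⊔ B^{2n}(r_k)` embeds symplectically into the interior of `B^{2n}(R)`: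
symplectic embeddings of the single closed balls with pairwise disjoint images that lie in the
interior of `B^{2n}(R)` -/
def Packs (n k : ℕ) (R : ℝ) (r : Fin k → ℝ) : Prop :=
  ∃ f : Fin k → (Fin n → ℂ) → (Fin n → ℂ),
    (∀ i, IsSymplecticBallEmbedding (r i) (f i)) ∧
    (∀ i, f i '' capBall n (r i) ⊆ interior (capBall n R)) ∧
    (∀ i j, i ≠ j → Disjoint (f i '' capBall n (r i)) (f j '' capBall n (r j)))

/-- the area form of the plane -/
noncomputable def om1 (u v : ℂ) : ℝ := u.re * v.im - u.im * v.re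

theorem omega_eq (u v : Fin n → ℂ) : omega u v = ∑ j, om1 (u j) (v j) := rfl

end P209
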