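import Vale.Agent.P209.Planar
import Vale.Agent.P209.Cells

/-!
# P209: the embedding of a ball attached to a unimodular simplex
-/

open scoped ContDiff Topology
open Matrix

namespace P209

variable {n : ℕ}

/-- `f` is differentiable at `z` and its derivative preserves `ω₀` -/
def SympAt (f : (Fin n → ℂ) → (Fin n → ℂ)) (z : Fin n → ℂ) : Prop :=
  DifferentiableAt ℝ f z ∧ ∀ u v, omega (fderiv ℝ f z u) (fderiv ℝ f z v) = omega u v

theorem SympAt.comp {f g : (Fin n → ℂ) → (Fin n → ℂ)} {z : Fin n → ℂ} (hg : SympAt g (f z))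
    (hf : SympAt f z) : SympAt (fun z => g (f z)) z := by
  have h : fderiv ℝ (fun z => g (f z)) z = (fderiv ℝ g (f z)).comp (fderiv ℝ f z) :=
    fderiv_comp z hg.1 hf.1
  refine ⟨hg.1.comp z hf.1, fun u v => ?_⟩
  rw [h]
  simp only [ContinuousLinearMap.comp_apply]
  rw [hg.2, hf.2]

theorem sympAt_prod {φ : ℂ → ℂ} {z : Fin n → ℂ} (h : ∀ l, DifferentiableAt ℝ φ (z l) ∧
    ∀ u v, om1 (fderiv ℝ φ (z l) u) (fderiv ℝ φ (z l) v) = om1 u v) :
    SympAt (fun z l => φ (z l)) z := by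
  have h1 : HasFDerivAt (fun (z : Fin n → ℂ) l => φ (z l))
      (ContinuousLinearMap.pi fun l => (fderiv ℝ φ (z l)).comp
        (ContinuousLinearMap.proj (R := ℝ) (φ := fun _ : Fin n => ℂ) l)) z := by
    rw [hasFDerivAt_pi]
    intro l
    exact (h l).1.hasFDerivAt.comp z
      (ContinuousLinearMap.proj (R := ℝ) (φ := fun _ : Fin n => ℂ) l).hasFDerivAt
  refine ⟨h1.differentiableAt, fun u v => ?_⟩
  rw [h1.fderiv, omega_eq, omega_eq]
  apply Finset.sum_congr rfl
  intro l _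
  exact (h l).2 (u l) (v l)

/-- linear part of the affine unimodular map in action-angle coordinates -/
noncomputable def LamL (A A' : Matrix (Fin n) (Fin n) ℤ) : (Fin n → ℂ) →ₗ[ℝ] (Fin n → ℂ) where
  toFun w := fun j => ⟨(rm A *ᵥ fun l => (w l).re) j, (rm A'ᵀ *ᵥ fun l => (w l).im) j⟩
  map_add' w w' := by
    funext j
    apply Complex.ext
    · simp only [Pi.add_apply, Complex.add_re]
      exact congrFun (Matrix.mulVec_add (rm A) (fun l => (w l).re) (fun l => (w' l).re)) j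
    · simp only [Pi.add_apply, Complex.add_im]
      exact congrFun (Matrix.mulVec_add (rm A'ᵀ) (fun l => (w l).im) (fun l => (w' l).im)) j
  map_smul' r w := by
    funext j
    apply Complex.ext
    · simp only [Pi.smul_apply, Complex.real_smul, Complex.mul_re, Complex.ofReal_re,
        Complex.ofReal_im, zero_mul, sub_zero, RingHom.id_apply]
      exact congrFun (Matrix.mulVec_smul (rm A) r (fun l => (w l).re)) j
    · simp only [Pi.smul_apply, Complex.real_smul, Complex.mul_im, Complex.ofReal_re,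
        Complex.ofReal_im, zero_mul, add_zero, RingHom.id_apply]
      exact congrFun (Matrix.mulVec_smul (rm A'ᵀ) r (fun l => (w l).im)) j

/-- the affine map -/
noncomputable def Lam (A A' : Matrix (Fin n) (Fin n) ℤ) (v : Fin n → ℝ) (w : Fin n → ℂ) :
    Fin n → ℂ :=
  LamL A A' w + fun j => ((v j : ℝ) : ℂ)

theorem Lam_re (A A' : Matrix (Fin n) (Fin n) ℤ) (v : Fin n → ℝ) (w : Fin n → ℂ) (j : Fin n) :
    (Lam A A' v w j).re = (rm A *ᵥ (fun l => (w l).re) + v) j := by
  simp [Lam, LamL]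

theorem Lam_im (A A' : Matrix (Fin n) (Fin n) ℤ) (v : Fin n → ℝ) (w : Fin n → ℂ) (j : Fin n) :
    (Lam A A' v w j).im = (rm A'ᵀ *ᵥ (fun l => (w l).im)) j := by
  simp [Lam, LamL]

theorem rm_transpose (A : Matrix (Fin n) (Fin n) ℤ) : rm Aᵀ = (rm A)ᵀ := by
  unfold rm; rw [Matrix.transpose_map]

theorem dot_unimod {A A' : Matrix (Fin n) (Fin n) ℤ} (h : A' * A = 1) (x y : Fin n → ℝ) :
    (rm A *ᵥ x) ⬝ᵥ (rm A'ᵀ *ᵥ y) = x ⬝ᵥ y := by
  rw [rm_transpose, Matrix.mulVec_transpose, dotProduct_comm, ← Matrix.dotProduct_mulVec,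
    Matrix.mulVec_mulVec, ← rm_mul, h, rm_one, Matrix.one_mulVec, dotProduct_comm]

theorem sympAt_Lam {A A' : Matrix (Fin n) (Fin n) ℤ} (h : A' * A = 1) (v : Fin n → ℝ)
    (w : Fin n → ℂ) : SympAt (Lam A A' v) w := by
  have h1 : HasFDerivAt (Lam A A' v) (LinearMap.toContinuousLinearMap (LamL A A')) w := by
    exact (LinearMap.toContinuousLinearMap (LamL A A')).hasFDerivAt.add_const _
  refine ⟨h1.differentiableAt, fun u u' => ?_⟩
  rw [h1.fderiv]
  have e : ∀ a b : Fin n → ℂ, omega a b = (fun j => (a j).re) ⬝ᵥ (fun j => (b j).im) -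
      (fun j => (b j).re) ⬝ᵥ (fun j => (a j).im) := by
    intro a b
    simp only [omega, dotProduct, ← Finset.sum_sub_distrib]
    apply Finset.sum_congr rfl
    intro j _; ring
  rw [e, e]
  have e1 := dot_unimod h (fun j => (u j).re) (fun j => (u' j).im)
  have e2 := dot_unimod h (fun j => (u' j).re) (fun j => (u j).im)
  rw [← e1, ← e2]
  rfl

theorem isOpenEmbedding_of_symp {f : (Fin n → ℂ) → (Fin n → ℂ)} {U : Set (Fin n → ℂ)}
    (hU : IsOpen U) (hf : ContDiffOn ℝ ∞ f U) (hinj : Set.InjOn f U)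
    (hs : ∀ z ∈ U, ∀ u v, omega (fderiv ℝ f z u) (fderiv ℝ f z v) = omega u v) :
    Topology.IsOpenEmbedding (U.domRestrict f) := by
  apply Topology.IsOpenEmbedding.of_continuous_injective_isOpenMap
  · exact hf.continuousOn.domRestrict
  · exact Set.injOn_iff_injective.1 hinj
  · rw [isOpenMap_iff_nhds_le]
    rintro ⟨z, hz⟩
    have h1 : ContDiffAt ℝ ∞ f z := hf.contDiffAt (hU.mem_nhds hz)
    have h2 : HasStrictFDerivAt f (fderiv ℝ f z) z := h1.hasStrictFDerivAt (by simp)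
    have hker : Function.Injective (fderiv ℝ f z) := by
      rw [injective_iff_map_eq_zero]
      intro u hu
      have h3 : ∀ v, omega u v = 0 := by
        intro v
        rw [← hs z hz, hu]
        simp [omega]
      funext j
      apply Complex.ext
      · have := h3 (Pi.single j Complex.I)
        simp only [omega] at this
        rw [Finset.sum_eq_single j] at this
        · simpa using this
        · intro l _ hl; simp [hl]
        · simp
      · have := h3 (Pi.single j 1)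
        simp only [omega] at this
        rw [Finset.sum_eq_single j] at this
        · simpa using this
        · intro l _ hl; simp [hl]
        · simp
    have hsurj : Function.Surjective (fderiv ℝ f z) :=
      (LinearMap.injective_iff_surjective (f := (fderiv ℝ f z).toLinearMap)).1 hker
    have h4 := h2.map_nhds_eq_of_surj (LinearMap.range_eq_top.2 hsurj)
    have h5 : Filter.map (U.domRestrict f) (𝓝 (⟨z, hz⟩ : U)) = Filter.map f (𝓝 z) := by
      have : U.domRestrict f = f ∘ Subtype.val := rfl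
      rw [this, ← Filter.map_map, map_nhds_subtype_coe_eq_nhds hz (hU.mem_nhds hz)]
    rw [h5, h4]
    exact le_rfl

/-- the embedding attached to the cell `(A, v)` and the parameter `ε` -/
noncomputable def emb (A A' : Matrix (Fin n) (Fin n) ℤ) (v : Fin n → ℝ) (ε : ℝ)
    (z : Fin n → ℂ) : Fin n → ℂ :=
  fun j => Qm (Lam A A' v (fun l => Tb ε (z l)) j)

theorem emb_inj {A A' : Matrix (Fin n) (Fin n) ℤ} (h : A' * A = 1) {v : Fin n → ℝ} {ε : ℝ}
    (hε : 0 < ε) {z z' : Fin n → ℂ}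
    (hz : ∀ j, 0 < (rm A *ᵥ (fun l => (Tb ε (z l)).re) + v) j)
    (hz' : ∀ j, 0 < (rm A *ᵥ (fun l => (Tb ε (z' l)).re) + v) j)
    (he : emb A A' v ε z = emb A A' v ε z') : z = z' := by
  have h1 : ∀ j, (Lam A A' v (fun l => Tb ε (z l)) j).re =
      (Lam A A' v (fun l => Tb ε (z' l)) j).re ∧ ∃ k : ℤ,
      (Lam A A' v (fun l => Tb ε (z l)) j).im - (Lam A A' v (fun l => Tb ε (z' l)) j).im = k := by
    intro j
    apply Qm_inj
    · rw [Lam_re]; exact hz j
    · rw [Lam_re]; exact hz' j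
    · exact congrFun he j
  have hinvR : rm A' * rm A = 1 := by rw [← rm_mul, h, rm_one]
  have h2 : (fun l => (Tb ε (z l)).re) = fun l => (Tb ε (z' l)).re := by
    have h3 : rm A *ᵥ (fun l => (Tb ε (z l)).re) = rm A *ᵥ (fun l => (Tb ε (z' l)).re) := by
      funext j
      have := (h1 j).1
      rw [Lam_re, Lam_re] at this
      simpa using this
    have h4 := congrArg (fun y => rm A' *ᵥ y) h3
    simpa only [Matrix.mulVec_mulVec, hinvR, Matrix.one_mulVec] using h4
  choose k hk using fun j => (h1 j).2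
  have h5 : (fun l => (Tb ε (z l)).im - (Tb ε (z' l)).im) = fun l => ((((Aᵀ *ᵥ k) l : ℤ)) : ℝ) := by
    have h6 : rm A'ᵀ *ᵥ (fun l => (Tb ε (z l)).im - (Tb ε (z' l)).im) = fun j => ((k j : ℤ) : ℝ) := by
      funext j
      rw [← hk j, Lam_im, Lam_im]
      exact congrFun (Matrix.mulVec_sub (rm A'ᵀ) (fun l => (Tb ε (z l)).im)
        (fun l => (Tb ε (z' l)).im)) j
    have h7 : rm Aᵀ * rm A'ᵀ = 1 := by
      rw [← rm_mul, ← Matrix.transpose_mul, h, Matrix.transpose_one, rm_one]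
    have h8 := congrArg (fun y => rm Aᵀ *ᵥ y) h6
    simp only [Matrix.mulVec_mulVec, h7, Matrix.one_mulVec] at h8
    rw [h8]
    funext l
    simp [rm, Matrix.mulVec, dotProduct]
  funext l
  apply Tb_injective hε
  apply Complex.ext
  · exact congrFun h2 l
  · have h9 : (Tb ε (z l)).im - (Tb ε (z' l)).im = ((((Aᵀ *ᵥ k) l : ℤ)) : ℝ) := congrFun h5 l
    have b1 := Tb_im_mem (b := ε) (z l)
    have b2 := Tb_im_mem (b := ε) (z' l)
    have h10 : ((((Aᵀ *ᵥ k) l : ℤ)) : ℝ) < 1 := by rw [← h9]; linarith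
    have h11 : (-1 : ℝ) < ((((Aᵀ *ᵥ k) l : ℤ)) : ℝ) := by rw [← h9]; linarith
    have h12 : (Aᵀ *ᵥ k) l < 1 := by exact_mod_cast h10
    have h13 : -1 < (Aᵀ *ᵥ k) l := by exact_mod_cast h11
    have h14 : (Aᵀ *ᵥ k) l = 0 := by omega
    rw [h14] at h9
    push_cast at h9
    linarith

theorem exists_embedding {A A' : Matrix (Fin n) (Fin n) ℤ} (h : A' * A = 1) (v : Fin n → ℝ)
    {r ρ : ℝ} (hr : r < ρ) (hpos : ∀ x ∈ Simp n ρ, ∀ j, 0 < (rm A *ᵥ x + v) j) :
    ∃ f : (Fin n → ℂ) → (Fin n → ℂ), IsSymplecticBallEmbedding r f ∧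
      ∀ z ∈ capBall n r, ∃ x ∈ Simp n ρ, ∀ j, Real.pi * ‖f z j‖ ^ 2 = (rm A *ᵥ x + v) j := by
  have hp := Real.pi_pos
  set ε : ℝ := (ρ - r) / (Real.pi * (n + 1)) with hεd
  have hε : 0 < ε := div_pos (by linarith) (by positivity)
  have hεn : (n : ℝ) * (Real.pi * ε) < ρ - r := by
    have e : (n : ℝ) * (Real.pi * ε) = (ρ - r) * (n / (n + 1)) := by
      rw [hεd]; field_simp
    rw [e]
    have : (n : ℝ) / (n + 1) < 1 := by rw [div_lt_one (by positivity)]; linarith
    nlinarith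
  set U : Set (Fin n → ℂ) := {z | ∑ j, (Real.pi * ‖z j‖ ^ 2 + Real.pi * ε) < ρ} with hUd
  have hUo : IsOpen U := by
    apply isOpen_lt _ continuous_const
    fun_prop
  have hBU : capBall n r ⊆ U := by
    intro z hz
    have hz' : Real.pi * ∑ j, ‖z j‖ ^ 2 ≤ r := hz
    show ∑ j, (Real.pi * ‖z j‖ ^ 2 + Real.pi * ε) < ρ
    rw [Finset.sum_add_distrib, ← Finset.mul_sum]
    simp only [Finset.sum_const, Finset.card_univ, Fintype.card_fin, nsmul_eq_mul]
    linarith
  have hS : ∀ z ∈ U, (fun l => (Tb ε (z l)).re) ∈ Simp n ρ := by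
    intro z hz
    refine ⟨fun j => Tb_re_pos hε (z j), lt_of_le_of_lt ?_ hz⟩
    exact Finset.sum_le_sum fun j _ => (Tb_re_lt hε (z j)).le
  have hre : ∀ z ∈ U, ∀ j, 0 < (Lam A A' v (fun l => Tb ε (z l)) j).re := by
    intro z hz j
    rw [Lam_re]
    exact hpos _ (hS z hz) j
  have hsymp : ∀ z ∈ U, SympAt (emb A A' v ε) z := by
    intro z hz
    have h1 : SympAt (fun (z : Fin n → ℂ) l => Tb ε (z l)) z :=
      sympAt_prod fun l => Tb_om1 hε (z l)
    have h2 : SympAt (Lam A A' v) (fun l => Tb ε (z l)) := sympAt_Lam h v _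
    have h3 : SympAt (fun (w : Fin n → ℂ) l => Qm (w l)) (Lam A A' v (fun l => Tb ε (z l))) :=
      sympAt_prod fun l => Qm_om1 (hre z hz l)
    have h4 : SympAt (fun z => Lam A A' v (fun l => Tb ε (z l))) z :=
      SympAt.comp (f := fun (z : Fin n → ℂ) l => Tb ε (z l)) h2 h1
    exact SympAt.comp (f := fun z => Lam A A' v (fun l => Tb ε (z l))) h3 h4
  have hcd : ContDiffOn ℝ ∞ (emb A A' v ε) U := by
    have h1 : ContDiff ℝ ∞ (fun (z : Fin n → ℂ) l => Tb ε (z l)) := by
      rw [contDiff_pi]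
      intro l
      exact (Tb_contDiff hε).comp (contDiff_apply ℝ ℂ l)
    have h2 : ContDiff ℝ ∞ (Lam A A' v) :=
      (LinearMap.toContinuousLinearMap (LamL A A')).contDiff.add contDiff_const
    have h3 : ContDiff ℝ ∞ (fun z : Fin n → ℂ => Lam A A' v (fun l => Tb ε (z l))) := h2.comp h1
    rw [contDiffOn_pi]
    intro j
    have h4 : ContDiff ℝ ∞ (fun z : Fin n → ℂ => Lam A A' v (fun l => Tb ε (z l)) j) :=
      (contDiff_pi.1 h3) j
    exact Qm_contDiffOn.comp h4.contDiffOn fun z hz => hre z hz j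
  have hinj : Set.InjOn (emb A A' v ε) U := by
    intro z hz z' hz' he
    exact emb_inj h hε (hpos _ (hS z hz)) (hpos _ (hS z' hz')) he
  refine ⟨emb A A' v ε, ⟨U, hUo, hBU, hcd,
    isOpenEmbedding_of_symp hUo hcd hinj fun z hz => (hsymp z hz).2, fun z hz => (hsymp z hz).2⟩,
    fun z hz => ⟨_, hS z (hBU hz), fun j => ?_⟩⟩
  have := Qm_norm (hre z (hBU hz) j)
  rw [Lam_re] at this
  exact this

end P209
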