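import Vale.Agent.P209.Pack

/-!
# P209: packing simplices by unimodular simplices, general families
-/

open scoped ContDiff Topology
open Matrix

namespace P209

variable {n : ℕ}

/-- the open simplex of size `ρ` contains pairwise disjoint unimodular images of open simplices of
sizes `s i` -/
def Fits (n : ℕ) (ρ : ℝ) {ι : Type*} (s : ι → ℝ) : Prop :=
  ∃ (A A' : ι → Matrix (Fin n) (Fin n) ℤ) (v : ι → Fin n → ℝ), (∀ i, A' i * A i = 1) ∧
    (∀ i, ∀ x ∈ Simp n (s i), (rm (A i) *ᵥ x + v i) ∈ Simp n ρ) ∧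
    (∀ i j, i ≠ j → ∀ x ∈ Simp n (s i), ∀ x' ∈ Simp n (s j),
      rm (A i) *ᵥ x + v i ≠ rm (A j) *ᵥ x' + v j)

theorem packs_of_fits {k : ℕ} {R : ℝ} {s r : Fin k → ℝ} (h : Fits n R s) (hr : ∀ i, r i < s i) :
    Packs n k R r := by
  obtain ⟨A, A', v, h1, h2, h3⟩ := h
  have h4 : ∀ i, ∃ f : (Fin n → ℂ) → (Fin n → ℂ), IsSymplecticBallEmbedding (r i) f ∧
      ∀ z ∈ capBall n (r i), ∃ x ∈ Simp n (s i), ∀ j,
        Real.pi * ‖f z j‖ ^ 2 = (rm (A i) *ᵥ x + v i) j := fun i =>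
    exists_embedding (h1 i) (v i) (hr i) fun x hx => (h2 i x hx).1
  choose f hf hf2 using h4
  refine ⟨f, hf, ?_, ?_⟩
  · rintro i _ ⟨z, hz, rfl⟩
    apply mem_interior_capBall
    obtain ⟨x, hx, h⟩ := hf2 i z hz
    rw [Finset.mul_sum, Finset.sum_congr rfl fun l _ => h l]
    exact (h2 i x hx).2
  · intro i j hij
    rw [Set.disjoint_left]
    rintro _ ⟨z, hz, rfl⟩ ⟨z', hz', he⟩
    obtain ⟨x, hx, h⟩ := hf2 i z hz
    obtain ⟨x', hx', h'⟩ := hf2 j z' hz'
    apply h3 i j hij x hx x' hx'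
    funext l
    rw [← h l, ← h' l, he]

theorem Simp_mono {a b : ℝ} (h : a ≤ b) : Simp n a ⊆ Simp n b := fun _ hx =>
  ⟨hx.1, lt_of_lt_of_le hx.2 h⟩

theorem Fits.mono {ρ : ℝ} {ι : Type*} {s s' : ι → ℝ} (h : Fits n ρ s) (hs : ∀ i, s' i ≤ s i) :
    Fits n ρ s' := by
  obtain ⟨A, A', v, h1, h2, h3⟩ := h
  exact ⟨A, A', v, h1, fun i x hx => h2 i x (Simp_mono (hs i) hx),
    fun i j hij x hx x' hx' => h3 i j hij x (Simp_mono (hs i) hx) x' (Simp_mono (hs j) hx')⟩

theorem Fits.reindex {ρ : ℝ} {ι κ : Type*} {s : ι → ℝ} (h : Fits n ρ s) (e : κ → ι)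
    (he : Function.Injective e) : Fits n ρ (fun i => s (e i)) := by
  obtain ⟨A, A', v, h1, h2, h3⟩ := h
  exact ⟨fun i => A (e i), fun i => A' (e i), fun i => v (e i), fun i => h1 _, fun i => h2 _,
    fun i j hij => h3 _ _ (fun h => hij (he h))⟩

theorem cell_inj {A A' : Matrix (Fin n) (Fin n) ℤ} (h : A' * A = 1) {v x x' : Fin n → ℝ}
    (he : rm A *ᵥ x + v = rm A *ᵥ x' + v) : x = x' := by
  have h1 : rm A *ᵥ x = rm A *ᵥ x' := add_right_cancel he
  have h2 := congrArg (fun y => rm A' *ᵥ y) h1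
  simpa only [Matrix.mulVec_mulVec, ← rm_mul, h, rm_one, Matrix.one_mulVec] using h2

/-- refinement: item `i` of the inner packing `t` sits in the cell `p i` of the outer packing -/
theorem Fits.refine {ρ : ℝ} {ι κ : Type*} {s : ι → ℝ} (h : Fits n ρ s) (p : κ → ι) {t : κ → ℝ}
    (ht : ∀ i, Fits n (s i) (fun k : {k : κ // p k = i} => t k.1)) : Fits n ρ t := by
  obtain ⟨A, A', v, h1, h2, h3⟩ := h
  choose B B' w g1 g2 g3 using ht
  have hmem : ∀ (k : κ) (x : Fin n → ℝ), x ∈ Simp n (t k) →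
      rm (B (p k) ⟨k, rfl⟩) *ᵥ x + w (p k) ⟨k, rfl⟩ ∈ Simp n (s (p k)) :=
    fun k x hx => g2 (p k) ⟨k, rfl⟩ x hx
  have hcomp : ∀ (k : κ) (x : Fin n → ℝ),
      rm (A (p k) * B (p k) ⟨k, rfl⟩) *ᵥ x + (rm (A (p k)) *ᵥ w (p k) ⟨k, rfl⟩ + v (p k)) =
      rm (A (p k)) *ᵥ (rm (B (p k) ⟨k, rfl⟩) *ᵥ x + w (p k) ⟨k, rfl⟩) + v (p k) := by
    intro k x
    rw [rm_mul, Matrix.mulVec_add, Matrix.mulVec_mulVec, add_assoc]
  refine ⟨fun k => A (p k) * B (p k) ⟨k, rfl⟩, fun k => B' (p k) ⟨k, rfl⟩ * A' (p k),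
    fun k => rm (A (p k)) *ᵥ w (p k) ⟨k, rfl⟩ + v (p k), ?_, ?_, ?_⟩
  · intro k
    rw [Matrix.mul_assoc, ← Matrix.mul_assoc (A' (p k)), h1, Matrix.one_mul, g1]
  · intro k x hx
    rw [hcomp]
    exact h2 _ _ (hmem k x hx)
  · intro k k' hkk' x hx x' hx'
    rw [hcomp, hcomp]
    by_cases hp : p k = p k'
    · intro he
      have key : ∀ (i : ι) (hk : p k = i) (hk' : p k' = i),
          rm (A i) *ᵥ (rm (B i ⟨k, hk⟩) *ᵥ x + w i ⟨k, hk⟩) + v i =
          rm (A i) *ᵥ (rm (B i ⟨k', hk'⟩) *ᵥ x' + w i ⟨k', hk'⟩) + v i → False := by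
        intro i hk hk' he
        have h5 := cell_inj (h1 i) he
        exact g3 i ⟨k, hk⟩ ⟨k', hk'⟩ (fun h => hkk' (congrArg Subtype.val h)) x hx x' hx' h5
      apply key (p k) rfl hp.symm
      rw [he]
      clear he key
      generalize_proofs
      have : ∀ (i : ι) (hk : p k' = i),
          rm (A (p k')) *ᵥ (rm (B (p k') ⟨k', rfl⟩) *ᵥ x' + w (p k') ⟨k', rfl⟩) + v (p k') =
          rm (A i) *ᵥ (rm (B i ⟨k', hk⟩) *ᵥ x' + w i ⟨k', hk⟩) + v i := by
        intro i hk; subst hk; rfl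
      exact this _ _
    · exact h3 _ _ hp _ (hmem k x hx) _ (hmem k' x' hx')

theorem fits_self (ρ : ℝ) {ι : Type*} [Subsingleton ι] : Fits n ρ (fun _ : ι => ρ) := by
  refine ⟨fun _ => 1, fun _ => 1, fun _ => 0, fun _ => by simp, ?_, ?_⟩
  · intro i x hx
    rw [rm_one, Matrix.one_mulVec, add_zero]
    exact hx
  · intro i j hij
    exact absurd (Subsingleton.elim i j) hij

theorem fits_grid (hn : 0 < n) {b : ℝ} (hb : 0 < b) (m : ℕ) :
    Fits n (b * m) (fun _ : Fin n → Fin m => b) := by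
  refine ⟨Am, Ainv, vc b, Ainv_mul, ?_, ?_⟩
  · intro c x hx
    exact ⟨fun j => yc_pos hb c hx j, yc_sum_lt hb c hx hn⟩
  · intro c c' hc x hx x' hx' he
    exact hc (yc_disj hb hx hx' he)

theorem fits_shell (hn : 0 < n) {R b : ℝ} (hb : 0 < b) {m : ℕ} (hmb : b * (m + 1) ≤ R) :
    Fits n R (fun o : Option (TopW n (m + 1)) => match o with
      | none => R - b
      | some _ => b) := by
  set e0 : Fin n → ℝ := Pi.single ⟨0, hn⟩ (R - b * (m + 1)) with he0
  have he0nn : ∀ j, 0 ≤ e0 j := by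
    intro j
    by_cases hj : j = ⟨0, hn⟩
    · rw [hj, he0, Pi.single_eq_same]; linarith
    · rw [he0, Pi.single_eq_of_ne hj]
  have he0s : ∑ j, e0 j = R - b * (m + 1) := by
    rw [he0]; simp
  have hy : ∀ (c : TopW n (m + 1)) (x : Fin n → ℝ),
      rm (Am c.1) *ᵥ x + (vc b c.1 + e0) = yc b c.1 x + e0 := by
    intro c x
    unfold yc
    rw [add_assoc]
  have hsum : ∀ (c : TopW n (m + 1)) (x : Fin n → ℝ), x ∈ Simp n b →
      R - b < ∑ j, (yc b c.1 x + e0) j ∧ ∑ j, (yc b c.1 x + e0) j < R := by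
    intro c x hx
    have h1 := yc_sum_lt hb c.1 hx hn
    obtain ⟨t, ht⟩ := c.2
    have h2 := yc_sum_gt hb c.1 hx hn ht
    have h3 : ∑ l, (yc b c.1 x + e0) l = ∑ l, yc b c.1 x l + (R - b * (m + 1)) := by
      simp only [Pi.add_apply, Finset.sum_add_distrib]
      rw [he0s]
    rw [h3]
    push_cast at h1 h2
    constructor
    · nlinarith
    · linarith
  refine ⟨fun o => o.elim 1 (fun c => Am c.1), fun o => o.elim 1 (fun c => Ainv c.1),
    fun o => o.elim 0 (fun c => vc b c.1 + e0), ?_, ?_, ?_⟩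
  · intro o
    cases o with
    | none => simp
    | some c => exact Ainv_mul c.1
  · intro o x hx
    cases o with
    | none =>
      show rm 1 *ᵥ x + 0 ∈ _
      rw [rm_one, Matrix.one_mulVec, add_zero]
      exact Simp_mono (by linarith) hx
    | some c =>
      show rm (Am c.1) *ᵥ x + (vc b c.1 + e0) ∈ _
      rw [hy]
      refine ⟨fun j => ?_, (hsum c x hx).2⟩
      have h1 := yc_pos hb c.1 hx j
      have h2 := he0nn j
      simp only [Pi.add_apply]
      linarith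
  · intro o o' hoo x hx x' hx'
    cases o with
    | none =>
      cases o' with
      | none => exact absurd rfl hoo
      | some c =>
        show rm 1 *ᵥ x + 0 ≠ rm (Am c.1) *ᵥ x' + (vc b c.1 + e0)
        rw [hy, rm_one, Matrix.one_mulVec, add_zero]
        intro he
        have h1 := (hsum c x' hx').1
        rw [← he] at h1
        have h2 : ∑ j, x j < R - b := hx.2
        linarith
    | some c =>
      cases o' with
      | none =>
        show rm (Am c.1) *ᵥ x + (vc b c.1 + e0) ≠ rm 1 *ᵥ x' + 0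
        rw [hy, rm_one, Matrix.one_mulVec, add_zero]
        intro he
        have h1 := (hsum c x hx).1
        rw [he] at h1
        have h2 : ∑ j, x' j < R - b := hx'.2
        linarith
      | some c' =>
        show rm (Am c.1) *ᵥ x + (vc b c.1 + e0) ≠ rm (Am c'.1) *ᵥ x' + (vc b c'.1 + e0)
        rw [hy, hy]
        intro he
        have h3 : yc b c.1 x = yc b c'.1 x' := add_right_cancel he
        have h4 := yc_disj hb hx hx' h3
        exact hoo (by rw [Subtype.ext h4])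

end P209
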