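import Vale.Agent.P209.Embed

/-!
# P209: packing a ball by one large ball and many small ones
-/

open scoped ContDiff Topology
open Matrix

namespace P209

variable {n : ℕ}

theorem mem_interior_capBall {R : ℝ} {w : Fin n → ℂ} (h : Real.pi * ∑ j, ‖w j‖ ^ 2 < R) :
    w ∈ interior (capBall n R) := by
  have ho : IsOpen {w : Fin n → ℂ | Real.pi * ∑ j, ‖w j‖ ^ 2 < R} := by
    apply isOpen_lt _ continuous_const
    fun_prop
  have hsub : {w : Fin n → ℂ | Real.pi * ∑ j, ‖w j‖ ^ 2 < R} ⊆ capBall n R := by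
    intro w hw
    have hw' : Real.pi * ∑ j, ‖w j‖ ^ 2 < R := hw
    exact hw'.le
  exact interior_maximal hsub ho h

/-- words that use the largest letter -/
def TopW (n m : ℕ) : Type := {c : Fin n → Fin m // ∃ t, (c t : ℕ) + 1 = m}

noncomputable instance (n m : ℕ) : Fintype (TopW n m) := by
  unfold TopW
  exact Fintype.ofFinite _

theorem card_TopW (n m : ℕ) : (m + 1) ^ n ≤ Fintype.card (TopW n (m + 1)) + m ^ n := by
  classical
  have h1 : Fintype.card (Fin n → Fin (m + 1)) = (m + 1) ^ n := by simp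
  have h2 : Fintype.card {c : Fin n → Fin (m + 1) // ¬ ∃ t, (c t : ℕ) + 1 = m + 1} ≤
      Fintype.card (Fin n → Fin m) := by
    apply Fintype.card_le_of_injective
      (fun (c : {c : Fin n → Fin (m + 1) // ¬ ∃ t, (c t : ℕ) + 1 = m + 1}) (t : Fin n) =>
        (⟨(c.1 t : ℕ), by
          have a1 := (c.1 t).2
          have a2 : ¬ ((c.1 t : ℕ) + 1 = m + 1) := fun h => c.2 ⟨t, h⟩
          omega⟩ : Fin m))
    intro c c' h
    apply Subtype.ext
    funext t
    have := congrFun h t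
    simp only [Fin.mk.injEq] at this
    exact Fin.ext this
  have h3 : Fintype.card (Fin n → Fin m) = m ^ n := by simp
  have h4 := Fintype.card_subtype_compl (fun c : Fin n → Fin (m + 1) => ∃ t, (c t : ℕ) + 1 = m + 1)
  have h5 : Fintype.card (TopW n (m + 1)) =
      Fintype.card {c : Fin n → Fin (m + 1) // ∃ t, (c t : ℕ) + 1 = m + 1} :=
    Fintype.card_congr (Equiv.refl _)
  omega

theorem packs_general {k m : ℕ} (hn : 0 < n) {R b : ℝ} (hb : 0 < b) (hmb : b * (m + 1) ≤ R)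
    {r : Fin k → ℝ} (i0 : Fin k) (hr0 : r i0 < R - b) (hr : ∀ j, j ≠ i0 → r j < b)
    (hk : k + m ^ n ≤ 1 + (m + 1) ^ n) : Packs n k R r := by
  classical
  have hcard : Fintype.card {j : Fin k // j ≠ i0} ≤ Fintype.card (TopW n (m + 1)) := by
    have h1 := card_TopW n m
    have h2 : Fintype.card {j : Fin k // j ≠ i0} = k - 1 := by
      rw [Fintype.card_subtype_compl]; simp
    have h3 : 0 < k := i0.pos
    omega
  obtain ⟨ψ⟩ := Function.Embedding.nonempty_of_card_le hcard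
  set e0 : Fin n → ℝ := Pi.single ⟨0, hn⟩ (R - b * (m + 1)) with he0
  have he0nn : ∀ j, 0 ≤ e0 j := by
    intro j
    by_cases hj : j = ⟨0, hn⟩
    · rw [hj, he0, Pi.single_eq_same]; linarith
    · rw [he0, Pi.single_eq_of_ne hj]
  have he0s : ∑ j, e0 j = R - b * (m + 1) := by
    rw [he0]; simp
  -- small balls
  have hsmall : ∀ j : {j : Fin k // j ≠ i0}, ∃ f : (Fin n → ℂ) → (Fin n → ℂ),
      IsSymplecticBallEmbedding (r j.1) f ∧
      ∀ z ∈ capBall n (r j.1), ∃ x ∈ Simp n b, ∀ l, Real.pi * ‖f z l‖ ^ 2 =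
        (yc b (ψ j).1 x + e0) l := by
    intro j
    obtain ⟨f, hf, hf2⟩ := exists_embedding (Ainv_mul (ψ j).1) (vc b (ψ j).1 + e0)
      (hr j.1 j.2) (ρ := b) (by
        intro x hx l
        have h1 := yc_pos hb (ψ j).1 hx l
        have h2 := he0nn l
        have : (rm (Am (ψ j).1) *ᵥ x + (vc b (ψ j).1 + e0)) l = yc b (ψ j).1 x l + e0 l := by
          simp [yc, add_assoc]
        rw [this]; linarith)
    refine ⟨f, hf, fun z hz => ?_⟩
    obtain ⟨x, hx, h⟩ := hf2 z hz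
    refine ⟨x, hx, fun l => ?_⟩
    rw [h l]
    simp [yc, add_assoc]
  obtain ⟨f0, hf0, hf02⟩ := exists_embedding (A := (1 : Matrix (Fin n) (Fin n) ℤ)) (A' := 1)
    (by simp) (0 : Fin n → ℝ) hr0 (by
      intro x hx l
      rw [rm_one, Matrix.one_mulVec]
      simpa using hx.1 l)
  choose g hg hg2 using hsmall
  set f : Fin k → (Fin n → ℂ) → (Fin n → ℂ) := fun i =>
    if h : i = i0 then f0 else g ⟨i, h⟩ with hf
  have hfi0 : f i0 = f0 := by simp [hf]
  have hfi : ∀ i (h : i ≠ i0), f i = g ⟨i, h⟩ := by intro i h; simp [hf, h]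
  -- sums
  have hsum0 : ∀ z ∈ capBall n (r i0), Real.pi * ∑ l, ‖f0 z l‖ ^ 2 < R - b := by
    intro z hz
    obtain ⟨x, hx, h⟩ := hf02 z hz
    rw [Finset.mul_sum, Finset.sum_congr rfl fun l _ => h l]
    rw [rm_one, Matrix.one_mulVec]
    simpa using hx.2
  have hsumj : ∀ j : {j : Fin k // j ≠ i0}, ∀ z ∈ capBall n (r j.1),
      R - b < Real.pi * ∑ l, ‖g j z l‖ ^ 2 ∧ Real.pi * ∑ l, ‖g j z l‖ ^ 2 < R := by
    intro j z hz
    obtain ⟨x, hx, h⟩ := hg2 j z hz
    rw [Finset.mul_sum, Finset.sum_congr rfl fun l _ => h l]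
    have h1 := yc_sum_lt hb (ψ j).1 hx hn
    obtain ⟨t, ht⟩ := (ψ j).2
    have h2 := yc_sum_gt hb (ψ j).1 hx hn ht
    have h3 : ∑ l, (yc b (ψ j).1 x + e0) l = ∑ l, yc b (ψ j).1 x l + (R - b * (m + 1)) := by
      simp only [Pi.add_apply, Finset.sum_add_distrib]
      rw [he0s]
    rw [h3]
    push_cast at h1 h2
    constructor
    · nlinarith
    · linarith
  refine ⟨f, ?_, ?_, ?_⟩
  · intro i
    by_cases h : i = i0
    · rw [h, hfi0]; exact hf0
    · rw [hfi i h]; exact hg ⟨i, h⟩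
  · rintro i _ ⟨z, hz, rfl⟩
    apply mem_interior_capBall
    by_cases h : i = i0
    · subst h
      rw [hfi0]
      have := hsum0 z hz
      linarith
    · rw [hfi i h]
      exact (hsumj ⟨i, h⟩ z hz).2
  · intro i i' hii'
    rw [Set.disjoint_left]
    rintro _ ⟨z, hz, rfl⟩ ⟨z', hz', he⟩
    by_cases h : i = i0
    · have h' : i' ≠ i0 := fun h' => hii' (h.trans h'.symm)
      subst h
      rw [hfi0, hfi i' h'] at he
      have h1 := hsum0 z hz
      have h2 := (hsumj ⟨i', h'⟩ z' hz').1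
      rw [he] at h2
      linarith
    · by_cases h' : i' = i0
      · subst h'
        rw [hfi0, hfi i h] at he
        have h1 := hsum0 z' hz'
        have h2 := (hsumj ⟨i, h⟩ z hz).1
        rw [he] at h1
        linarith
      · rw [hfi i h, hfi i' h'] at he
        obtain ⟨x, hx, h1⟩ := hg2 ⟨i, h⟩ z hz
        obtain ⟨x', hx', h2⟩ := hg2 ⟨i', h'⟩ z' hz'
        have h3 : yc b (ψ ⟨i, h⟩).1 x = yc b (ψ ⟨i', h'⟩).1 x' := by
          funext l
          have e1 := h1 l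
          have e2 := h2 l
          rw [he, e1] at e2
          simpa using e2
        have h4 := yc_disj hb hx hx' h3
        have h5 : ψ ⟨i, h⟩ = ψ ⟨i', h'⟩ := Subtype.ext h4
        have h6 := ψ.injective h5
        exact hii' (congrArg Subtype.val h6)

theorem exists_b {k : ℕ} {r : Fin k → ℝ} {i0 : Fin k} {T : ℝ} (hT : 0 < T)
    (h : ∀ j, j ≠ i0 → r j < T) : ∃ b, 0 < b ∧ b < T ∧ ∀ j, j ≠ i0 → r j < b := by
  have h1 : ∀ᶠ b in 𝓝[<] T, ∀ j, j ≠ i0 → r j < b := by
    rw [Filter.eventually_all]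
    intro j
    by_cases hj : j = i0
    · exact Filter.Eventually.of_forall fun b hb => absurd hj hb
    · filter_upwards [Ioo_mem_nhdsLT (h j hj)] with b hb _
      exact hb.1
  have h2 : ∀ᶠ b in 𝓝[<] T, b ∈ Set.Ioo 0 T := Ioo_mem_nhdsLT hT
  obtain ⟨b, hb1, hb2⟩ := (h1.and h2).exists
  exact ⟨b, hb2.1, hb2.2, hb1⟩

theorem packs_shell {k m : ℕ} (hn : 0 < n) {R : ℝ} {r : Fin k → ℝ} (i0 : Fin k)
    (hR : r i0 < R) (hpair : ∀ i j, i ≠ j → r i + r j < R)
    (hm : ((m : ℝ) + 1) * (R - r i0) ≤ R) (hk : k + m ^ n ≤ 1 + (m + 1) ^ n) :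
    Packs n k R r := by
  obtain ⟨b, hb0, hbT, hb⟩ := exists_b (r := r) (i0 := i0) (T := R - r i0) (by linarith)
    (fun j hj => by have := hpair j i0 hj; linarith)
  refine packs_general hn hb0 ?_ i0 (by linarith) hb hk
  have : b * (m + 1) ≤ (R - r i0) * (m + 1) := by
    apply mul_le_mul_of_nonneg_right hbT.le; positivity
  linarith

theorem packs_two_pow {k : ℕ} (hn : 0 < n) {R : ℝ} {r : Fin k → ℝ} (hR0 : 0 < R)
    (hR : ∀ i, r i < R) (hpair : ∀ i j, i ≠ j → r i + r j < R) (hk : k ≤ 2 ^ n) :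
    Packs n k R r := by
  rcases Nat.eq_zero_or_pos k with rfl | hkpos
  · exact ⟨fun i => i.elim0, fun i => i.elim0, fun i => i.elim0, fun i => i.elim0⟩
  · have hk' : k + 1 ^ n ≤ 1 + (1 + 1) ^ n := by
      rw [one_pow, show (1 + 1 : ℕ) = 2 from rfl]; omega
    by_cases hall : ∀ i, r i < R / 2
    · obtain ⟨b, hb0, hbT, hb⟩ := exists_b (r := r) (i0 := ⟨0, hkpos⟩) (T := R / 2)
        (by linarith) (fun j _ => hall j)
      refine packs_general (m := 1) hn hb0 ?_ ⟨0, hkpos⟩ ?_ hb hk'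
      · push_cast; linarith
      · have := hall ⟨0, hkpos⟩; linarith
    · push Not at hall
      obtain ⟨i0, hi0⟩ := hall
      refine packs_shell (m := 1) hn i0 (hR i0) hpair ?_ hk'
      push_cast; linarith

end P209
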