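import Vale.Agent.P209.Defs

/-!
# P209: the planar maps
-/

open scoped ContDiff
open Complex

namespace P209

/-- a planar map with real and imaginary part differentiable and Jacobian one preserves area -/
theorem om1_of_jac {f : ℂ → ℂ} {z : ℂ} {a c e d : ℝ}
    (hx : HasFDerivAt (fun z => (f z).re) (a • reCLM + c • imCLM : ℂ →L[ℝ] ℝ) z)
    (hy : HasFDerivAt (fun z => (f z).im) (e • reCLM + d • imCLM : ℂ →L[ℝ] ℝ) z)
    (hj : a * d - c * e = 1) :
    DifferentiableAt ℝ f z ∧ ∀ u v, om1 (fderiv ℝ f z u) (fderiv ℝ f z v) = om1 u v := by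
  have h : HasFDerivAt f ((ofRealCLM.comp (a • reCLM + c • imCLM : ℂ →L[ℝ] ℝ)) +
      (I • (ofRealCLM.comp (e • reCLM + d • imCLM : ℂ →L[ℝ] ℝ))) : ℂ →L[ℝ] ℂ) z := by
    have h1 := (ofRealCLM.hasFDerivAt (x := (f z).re)).comp z hx
    have h2 := ((ofRealCLM.hasFDerivAt (x := (f z).im)).comp z hy).const_smul I
    have h3 := h1.add h2
    refine h3.congr_of_eventuallyEq (Filter.Eventually.of_forall fun w => ?_)
    simp only [Pi.add_apply, Function.comp, ofRealCLM_apply, Pi.smul_apply, smul_eq_mul]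
    rw [mul_comm I]
    exact (re_add_im (f w)).symm
  refine ⟨h.differentiableAt, fun u v => ?_⟩
  rw [h.fderiv]
  simp [om1]
  linear_combination (u.re * v.im - u.im * v.re) * hj

section T

variable (b : ℝ)

noncomputable def sb (z : ℂ) : ℝ := Real.sqrt (2 * b + z.re ^ 2 + z.im ^ 2)

noncomputable def Wb (z : ℂ) : ℝ := ((sb b z + z.re) ^ 2 + z.im ^ 2) / 2

/-- the plane onto a subset of the strip `(0,∞) × (0,1)`, area preserving -/
noncomputable def Tb (z : ℂ) : ℂ :=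
  ⟨Real.pi * (b + z.re ^ 2 + z.im ^ 2 - b ^ 2 / (2 * Wb b z)),
    1 / 2 + Real.arctan (z.im * sb b z / Wb b z) / Real.pi⟩

variable {b}

theorem sb_pos (hb : 0 < b) (z : ℂ) : 0 < sb b z := Real.sqrt_pos.2 (by positivity)

theorem sb_sq (hb : 0 < b) (z : ℂ) : sb b z ^ 2 = 2 * b + z.re ^ 2 + z.im ^ 2 :=
  Real.sq_sqrt (by positivity)

theorem sb_gt (hb : 0 < b) (z : ℂ) : |z.re| < sb b z := by
  apply Real.lt_sqrt_of_sq_lt
  rw [sq_abs]; nlinarith [sq_nonneg z.im]

theorem Wb_pos (hb : 0 < b) (z : ℂ) : 0 < Wb b z := by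
  have h := sb_gt hb z
  have h2 : 0 < sb b z + z.re := by linarith [neg_abs_le z.re]
  unfold Wb; positivity

theorem Wb_id (hb : 0 < b) (z : ℂ) :
    Wb b z ^ 2 + (z.im * sb b z) ^ 2 + b ^ 2 = 2 * (b + z.re ^ 2 + z.im ^ 2) * Wb b z := by
  have h := sb_sq hb z
  have hb2 : b = (sb b z ^ 2 - z.re ^ 2 - z.im ^ 2) / 2 := by linarith
  have : Wb b z = ((sb b z + z.re) ^ 2 + z.im ^ 2) / 2 := rfl
  rw [this]
  set s := sb b z
  rw [hb2]
  ring

theorem Tb_re (hb : 0 < b) (z : ℂ) :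
    (Tb b z).re = Real.pi * (Wb b z / 2 * (1 + (z.im * sb b z / Wb b z) ^ 2)) := by
  have hW := Wb_pos hb z
  have h := Wb_id hb z
  show Real.pi * (b + z.re ^ 2 + z.im ^ 2 - b ^ 2 / (2 * Wb b z)) = _
  congr 1
  field_simp
  linarith

theorem Tb_re_pos (hb : 0 < b) (z : ℂ) : 0 < (Tb b z).re := by
  rw [Tb_re hb]
  have hW := Wb_pos hb z
  have := Real.pi_pos
  positivity

theorem Tb_re_lt (hb : 0 < b) (z : ℂ) : (Tb b z).re < Real.pi * ‖z‖ ^ 2 + Real.pi * b := by
  have hW := Wb_pos hb z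
  have h1 : ‖z‖ ^ 2 = z.re ^ 2 + z.im ^ 2 := by
    rw [Complex.sq_norm, Complex.normSq_apply]; ring
  show Real.pi * (b + z.re ^ 2 + z.im ^ 2 - b ^ 2 / (2 * Wb b z)) < _
  rw [h1, ← mul_add]
  apply mul_lt_mul_of_pos_left _ Real.pi_pos
  have : 0 < b ^ 2 / (2 * Wb b z) := by positivity
  linarith

theorem Tb_im_mem (z : ℂ) : 0 < (Tb b z).im ∧ (Tb b z).im < 1 := by
  show 0 < 1 / 2 + Real.arctan (z.im * sb b z / Wb b z) / Real.pi ∧
    1 / 2 + Real.arctan (z.im * sb b z / Wb b z) / Real.pi < 1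
  have h1 := Real.neg_pi_div_two_lt_arctan (z.im * sb b z / Wb b z)
  have h2 := Real.arctan_lt_pi_div_two (z.im * sb b z / Wb b z)
  have hp := Real.pi_pos
  constructor
  · have : -(1 / 2) < Real.arctan (z.im * sb b z / Wb b z) / Real.pi := by
      rw [lt_div_iff₀ hp]; linarith
    linarith
  · have : Real.arctan (z.im * sb b z / Wb b z) / Real.pi < 1 / 2 := by
      rw [div_lt_iff₀ hp]; linarith
    linarith

theorem Tb_injective (hb : 0 < b) : Function.Injective (Tb b) := by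
  intro z w h
  have hWz := Wb_pos hb z
  have hWw := Wb_pos hb w
  have hsz := sb_pos hb z
  have hsw := sb_pos hb w
  have hp := Real.pi_pos
  have him : (Tb b z).im = (Tb b w).im := by rw [h]
  have hre : (Tb b z).re = (Tb b w).re := by rw [h]
  have hY : z.im * sb b z / Wb b z = w.im * sb b w / Wb b w := by
    have h1 : 1 / 2 + Real.arctan (z.im * sb b z / Wb b z) / Real.pi =
      1 / 2 + Real.arctan (w.im * sb b w / Wb b w) / Real.pi := him
    have h2 : Real.arctan (z.im * sb b z / Wb b z) / Real.pi =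
      Real.arctan (w.im * sb b w / Wb b w) / Real.pi := by linarith
    have h3 := (div_left_inj' hp.ne').1 h2
    exact Real.arctan_injective h3
  have hX : Wb b z = Wb b w := by
    rw [Tb_re hb, Tb_re hb, ← hY] at hre
    have h1 := mul_left_cancel₀ hp.ne' hre
    have h2 := mul_right_cancel₀ (b := 1 + (z.im * sb b z / Wb b z) ^ 2)
      (by positivity) h1
    linarith
  have hN : z.im * sb b z = w.im * sb b w := by
    rw [hX] at hY
    exact (div_left_inj' hWw.ne').1 hY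
  have hE : b + z.re ^ 2 + z.im ^ 2 = b + w.re ^ 2 + w.im ^ 2 := by
    have h1 := Wb_id hb z
    have h2 := Wb_id hb w
    rw [hN, hX] at h1
    have h3 : 2 * (b + z.re ^ 2 + z.im ^ 2) * Wb b w = 2 * (b + w.re ^ 2 + w.im ^ 2) * Wb b w := by
      linarith
    have h4 := mul_right_cancel₀ hWw.ne' h3
    linarith
  have hs : sb b z = sb b w := by
    unfold sb
    congr 1
    linarith
  have hv : z.im = w.im := by
    rw [hs] at hN
    exact mul_right_cancel₀ hsw.ne' hN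
  have hu : z.re = w.re := by
    have h1 : Wb b z = ((sb b z + z.re) ^ 2 + z.im ^ 2) / 2 := rfl
    have h2 : Wb b w = ((sb b w + w.re) ^ 2 + w.im ^ 2) / 2 := rfl
    have e1 : z.re ^ 2 = w.re ^ 2 := by rw [hv] at hE; linarith
    rw [hX, h2, hs, hv] at h1
    have h3 : sb b w * z.re = sb b w * w.re := by nlinarith
    exact mul_left_cancel₀ hsw.ne' h3
  exact Complex.ext hu hv

theorem contDiff_re : ContDiff ℝ ∞ (fun z : ℂ => z.re) := reCLM.contDiff
theorem contDiff_im : ContDiff ℝ ∞ (fun z : ℂ => z.im) := imCLM.contDiff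

theorem contDiff_mk {x y : ℂ → ℝ} (hx : ContDiff ℝ ∞ x) (hy : ContDiff ℝ ∞ y) :
    ContDiff ℝ ∞ (fun z => (⟨x z, y z⟩ : ℂ)) := by
  have h1 : ContDiff ℝ ∞ (fun z => (ofRealCLM (x z) : ℂ) + I * ofRealCLM (y z)) :=
    (ofRealCLM.contDiff.comp hx).add (contDiff_const.mul (ofRealCLM.contDiff.comp hy))
  have h2 : (fun z => (⟨x z, y z⟩ : ℂ)) = fun z => (ofRealCLM (x z) : ℂ) + I * ofRealCLM (y z) := by
    funext z
    apply Complex.ext <;> simp
  rw [h2]
  exact h1

theorem sb_contDiff (hb : 0 < b) : ContDiff ℝ ∞ (sb b) := by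
  unfold sb
  apply ContDiff.sqrt
  · exact ((contDiff_const.add (contDiff_re.pow 2))).add (contDiff_im.pow 2)
  · intro z; positivity

theorem Wb_contDiff (hb : 0 < b) : ContDiff ℝ ∞ (Wb b) := by
  unfold Wb
  exact ((((sb_contDiff hb).add contDiff_re).pow 2).add (contDiff_im.pow 2)).div_const 2

theorem Tb_contDiff (hb : 0 < b) : ContDiff ℝ ∞ (Tb b) := by
  have hW := Wb_contDiff hb
  have hs := sb_contDiff hb
  unfold Tb
  apply contDiff_mk
  · refine contDiff_const.mul ((((contDiff_const.add (contDiff_re.pow 2))).add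
      (contDiff_im.pow 2)).sub (contDiff_const.div (contDiff_const.mul hW) ?_))
    intro z; have := Wb_pos hb z; positivity
  · refine contDiff_const.add (ContDiff.div_const (ContDiff.arctan ?_) _)
    refine (contDiff_im.mul hs).div hW ?_
    intro z; exact (Wb_pos hb z).ne'

/-- `f` has partial derivatives `a`, `c` at `z` (and is differentiable) -/
def Dz (f : ℂ → ℝ) (z : ℂ) (a c : ℝ) : Prop :=
  HasFDerivAt f (a • reCLM + c • imCLM : ℂ →L[ℝ] ℝ) z

theorem Dz.congr {f : ℂ → ℝ} {z : ℂ} {a c a' c' : ℝ} (h : Dz f z a c) (h1 : a = a')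
    (h2 : c = c') : Dz f z a' c' := by subst h1 h2; exact h

theorem Dz_re (z : ℂ) : Dz (fun z => z.re) z 1 0 := by
  unfold Dz
  have h : HasFDerivAt (fun z : ℂ => z.re) (reCLM : ℂ →L[ℝ] ℝ) z := reCLM.hasFDerivAt
  refine h.congr_fderiv ?_
  ext u; simp

theorem Dz_im (z : ℂ) : Dz (fun z => z.im) z 0 1 := by
  unfold Dz
  have h : HasFDerivAt (fun z : ℂ => z.im) (imCLM : ℂ →L[ℝ] ℝ) z := imCLM.hasFDerivAt
  refine h.congr_fderiv ?_
  ext u; simp

theorem Dz_const (r : ℝ) (z : ℂ) : Dz (fun _ => r) z 0 0 := by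
  unfold Dz
  refine (hasFDerivAt_const r z).congr_fderiv ?_
  ext u; simp

theorem Dz.add {f g : ℂ → ℝ} {z : ℂ} {a c a' c' : ℝ} (h : Dz f z a c) (h' : Dz g z a' c') :
    Dz (fun z => f z + g z) z (a + a') (c + c') := by
  refine (HasFDerivAt.add h h').congr_fderiv ?_
  ext u; simp; ring

theorem Dz.sub {f g : ℂ → ℝ} {z : ℂ} {a c a' c' : ℝ} (h : Dz f z a c) (h' : Dz g z a' c') :
    Dz (fun z => f z - g z) z (a - a') (c - c') := by
  refine (HasFDerivAt.sub h h').congr_fderiv ?_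
  ext u; simp; ring

theorem Dz.mul {f g : ℂ → ℝ} {z : ℂ} {a c a' c' : ℝ} (h : Dz f z a c) (h' : Dz g z a' c') :
    Dz (fun z => f z * g z) z (f z * a' + g z * a) (f z * c' + g z * c) := by
  refine (HasFDerivAt.mul h h').congr_fderiv ?_
  ext u; simp; ring

theorem Dz.comp {f : ℂ → ℝ} {g : ℝ → ℝ} {z : ℂ} {a c g' : ℝ} (h : Dz f z a c)
    (hg : HasDerivAt g g' (f z)) : Dz (fun z => g (f z)) z (g' * a) (g' * c) := by
  refine (HasDerivAt.comp_hasFDerivAt z hg h).congr_fderiv ?_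
  ext u; simp; ring

theorem Dz_sb (hb : 0 < b) (z : ℂ) : Dz (sb b) z (z.re / sb b z) (z.im / sb b z) := by
  have hs := sb_pos hb z
  have h0 : (2 * b + z.re * z.re + z.im * z.im) ≠ 0 := by
    have h1 := mul_self_nonneg z.re
    have h2 := mul_self_nonneg z.im
    intro h; linarith
  have h1 : Dz (fun z : ℂ => 2 * b + z.re * z.re + z.im * z.im) z (2 * z.re) (2 * z.im) :=
    (((Dz_const (2 * b) z).add ((Dz_re z).mul (Dz_re z))).add ((Dz_im z).mul (Dz_im z))).congr
      (by ring) (by ring)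
  have h2 := h1.comp (Real.hasDerivAt_sqrt h0)
  have e : (fun z : ℂ => Real.sqrt (2 * b + z.re * z.re + z.im * z.im)) = sb b := by
    funext w; unfold sb; congr 1; ring
  rw [e] at h2
  have e2 : Real.sqrt (2 * b + z.re * z.re + z.im * z.im) = sb b z := congrFun e z
  refine h2.congr ?_ ?_ <;> rw [e2] <;> field_simp

theorem Dz_Wb (hb : 0 < b) (z : ℂ) : Dz (Wb b) z ((sb b z + z.re) ^ 2 / sb b z)
    ((sb b z + z.re) * z.im / sb b z + z.im) := by
  have hs := sb_pos hb z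
  have h1 := (Dz_sb hb z).add (Dz_re z)
  have h2 := ((h1.mul h1).add ((Dz_im z).mul (Dz_im z))).mul (Dz_const (1 / 2) z)
  have e : (fun z : ℂ => ((sb b z + z.re) * (sb b z + z.re) + z.im * z.im) * (1 / 2)) = Wb b := by
    funext w; unfold Wb; ring
  rw [e] at h2
  refine h2.congr ?_ ?_ <;> field_simp <;> ring

theorem jac_alg {b u v s W : ℝ} (hs : 0 < s) (hW : 0 < W) (hb2 : b = (s ^ 2 - u ^ 2 - v ^ 2) / 2)
    (hWd : W = ((s + u) ^ 2 + v ^ 2) / 2) :
    (2 * u + b ^ 2 / 2 * ((s + u) ^ 2 / s) / W ^ 2) *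
        (W * (s + v ^ 2 / s) - v * s * ((s + u) * v / s + v)) -
        (2 * v + b ^ 2 / 2 * ((s + u) * v / s + v) / W ^ 2) *
        (W * (v * u / s) - v * s * ((s + u) ^ 2 / s)) = W ^ 2 + (v * s) ^ 2 := by
  have h0 : (s + u) ^ 2 + v ^ 2 ≠ 0 := by intro h; rw [hWd, h] at hW; simp at hW
  subst hWd
  rw [hb2]
  field_simp
  ring

theorem Tb_jac (hb : 0 < b) (z : ℂ) : ∃ a c e d : ℝ, Dz (fun z => (Tb b z).re) z a c ∧
    Dz (fun z => (Tb b z).im) z e d ∧ a * d - c * e = 1 := by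
  have hs := sb_pos hb z
  have hW := Wb_pos hb z
  have hp := Real.pi_pos
  have h1 := Dz_Wb hb z
  have hinv := h1.comp (g := fun t => t⁻¹) (hasDerivAt_inv hW.ne')
  have hre := (Dz_const Real.pi z).mul ((((Dz_const b z).add ((Dz_re z).mul (Dz_re z))).add
    ((Dz_im z).mul (Dz_im z))).sub ((Dz_const (b ^ 2 / 2) z).mul hinv))
  have hN := ((Dz_im z).mul (Dz_sb hb z)).mul hinv
  have him := (Dz_const (1 / 2) z).add ((Dz_const (1 / Real.pi) z).mul
    (hN.comp (Real.hasDerivAt_arctan _)))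
  have e1 : (fun z => (Tb b z).re) = fun z => Real.pi * (b + z.re * z.re + z.im * z.im -
      b ^ 2 / 2 * (Wb b z)⁻¹) := by
    funext w
    show Real.pi * (b + w.re ^ 2 + w.im ^ 2 - b ^ 2 / (2 * Wb b w)) = _
    have := Wb_pos hb w
    field_simp
  have e2 : (fun z => (Tb b z).im) = fun z => 1 / 2 + 1 / Real.pi *
      Real.arctan (z.im * sb b z * (Wb b z)⁻¹) := by
    funext w
    show 1 / 2 + Real.arctan (w.im * sb b w / Wb b w) / Real.pi = _
    rw [div_eq_mul_inv (w.im * sb b w)]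
    ring
  rw [e1, e2]
  have h := sb_sq hb z
  have hb2 : b = (sb b z ^ 2 - z.re ^ 2 - z.im ^ 2) / 2 := by linarith
  have key := jac_alg hs hW hb2 rfl
  have hWN : 0 < Wb b z ^ 2 + (z.im * sb b z) ^ 2 := by positivity
  have h5 : 1 + (z.im * sb b z * (Wb b z)⁻¹) ^ 2 =
    (Wb b z ^ 2 + (z.im * sb b z) ^ 2) / Wb b z ^ 2 := by field_simp
  rw [h5] at him
  have hre' := hre.congr
    (a' := Real.pi * (2 * z.re + b ^ 2 / 2 * ((sb b z + z.re) ^ 2 / sb b z) / Wb b z ^ 2))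
    (c' := Real.pi * (2 * z.im + b ^ 2 / 2 * ((sb b z + z.re) * z.im / sb b z + z.im) /
      Wb b z ^ 2)) (by ring) (by ring)
  have him' := him.congr
    (a' := (Wb b z * (z.im * z.re / sb b z) - z.im * sb b z * ((sb b z + z.re) ^ 2 / sb b z)) /
      (Real.pi * (Wb b z ^ 2 + (z.im * sb b z) ^ 2)))
    (c' := (Wb b z * (sb b z + z.im ^ 2 / sb b z) - z.im * sb b z *
      ((sb b z + z.re) * z.im / sb b z + z.im)) / (Real.pi * (Wb b z ^ 2 + (z.im * sb b z) ^ 2)))
    (by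
      clear key hre him h hb2 h1 hinv hN e1 e2
      generalize sb b z = s at *
      generalize Wb b z = W at *
      field_simp
      ring)
    (by
      clear key hre him h hb2 h1 hinv hN e1 e2
      generalize sb b z = s at *
      generalize Wb b z = W at *
      field_simp
      ring)
  refine ⟨_, _, _, _, hre', him', ?_⟩
  have h6 : ∀ A B C D K : ℝ, K ≠ 0 → Real.pi * A * (D / (Real.pi * K)) -
    Real.pi * B * (C / (Real.pi * K)) = (A * D - B * C) / K := by
    intro A B C D K hK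
    field_simp
  rw [h6 _ _ _ _ _ hWN.ne', key, div_self hWN.ne']

theorem Tb_om1 (hb : 0 < b) (z : ℂ) : DifferentiableAt ℝ (Tb b) z ∧
    ∀ u v, om1 (fderiv ℝ (Tb b) z u) (fderiv ℝ (Tb b) z v) = om1 u v := by
  obtain ⟨a, c, e, d, h1, h2, h3⟩ := Tb_jac hb z
  exact om1_of_jac h1 h2 h3

end T

section Q

/-- the polar map, `x + i y ↦ √(x/π) e^{2 π i y}` -/
noncomputable def Qm (w : ℂ) : ℂ :=
  ⟨Real.sqrt (w.re / Real.pi) * Real.cos (2 * Real.pi * w.im),
    Real.sqrt (w.re / Real.pi) * Real.sin (2 * Real.pi * w.im)⟩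

theorem Qm_norm {w : ℂ} (hw : 0 < w.re) : Real.pi * ‖Qm w‖ ^ 2 = w.re := by
  rw [Complex.sq_norm, Complex.normSq_apply]
  show Real.pi * (Real.sqrt (w.re / Real.pi) * Real.cos (2 * Real.pi * w.im) *
    (Real.sqrt (w.re / Real.pi) * Real.cos (2 * Real.pi * w.im)) +
    Real.sqrt (w.re / Real.pi) * Real.sin (2 * Real.pi * w.im) *
    (Real.sqrt (w.re / Real.pi) * Real.sin (2 * Real.pi * w.im))) = w.re
  have h1 : Real.sqrt (w.re / Real.pi) ^ 2 = w.re / Real.pi :=
    Real.sq_sqrt (div_nonneg hw.le Real.pi_pos.le)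
  have h2 := Real.sin_sq_add_cos_sq (2 * Real.pi * w.im)
  have h3 : Real.pi * (Real.sqrt (w.re / Real.pi) * Real.cos (2 * Real.pi * w.im) *
    (Real.sqrt (w.re / Real.pi) * Real.cos (2 * Real.pi * w.im)) +
    Real.sqrt (w.re / Real.pi) * Real.sin (2 * Real.pi * w.im) *
    (Real.sqrt (w.re / Real.pi) * Real.sin (2 * Real.pi * w.im))) =
    Real.pi * (Real.sqrt (w.re / Real.pi) ^ 2 * (Real.sin (2 * Real.pi * w.im) ^ 2 +
      Real.cos (2 * Real.pi * w.im) ^ 2)) := by ring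
  rw [h3, h1, h2]
  have := Real.pi_pos
  field_simp

theorem Qm_inj {w w' : ℂ} (hw : 0 < w.re) (hw' : 0 < w'.re) (h : Qm w = Qm w') :
    w.re = w'.re ∧ ∃ k : ℤ, w.im - w'.im = k := by
  have hre : w.re = w'.re := by rw [← Qm_norm hw, ← Qm_norm hw', h]
  refine ⟨hre, ?_⟩
  have hs : 0 < Real.sqrt (w.re / Real.pi) := Real.sqrt_pos.2 (div_pos hw Real.pi_pos)
  have h1 : Real.sqrt (w.re / Real.pi) * Real.cos (2 * Real.pi * w.im) =
    Real.sqrt (w'.re / Real.pi) * Real.cos (2 * Real.pi * w'.im) := congrArg Complex.re h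
  have h2 : Real.sqrt (w.re / Real.pi) * Real.sin (2 * Real.pi * w.im) =
    Real.sqrt (w'.re / Real.pi) * Real.sin (2 * Real.pi * w'.im) := congrArg Complex.im h
  rw [← hre] at h1 h2
  have h3 := mul_left_cancel₀ hs.ne' h1
  have h4 := mul_left_cancel₀ hs.ne' h2
  have h5 : ((2 * Real.pi * w.im : ℝ) : Real.Angle) = ((2 * Real.pi * w'.im : ℝ) : Real.Angle) :=
    Real.Angle.cos_sin_inj h3 h4
  rw [Real.Angle.angle_eq_iff_two_pi_dvd_sub] at h5
  obtain ⟨k, hk⟩ := h5
  refine ⟨k, ?_⟩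
  have hp := Real.pi_pos
  have h6 : 2 * Real.pi * (w.im - w'.im) = 2 * Real.pi * k := by linarith
  exact mul_left_cancel₀ (by positivity) h6

theorem Qm_contDiffOn : ContDiffOn ℝ ∞ Qm {w | 0 < w.re} := by
  have h0 : ContDiffOn ℝ ∞ (fun w : ℂ => Real.sqrt (w.re / Real.pi)) {w | 0 < w.re} := by
    apply ContDiffOn.sqrt
    · exact (contDiff_re.div_const _).contDiffOn
    · intro w hw; exact (div_pos hw Real.pi_pos).ne'
  have h1 : ContDiffOn ℝ ∞ (fun w : ℂ => Real.cos (2 * Real.pi * w.im)) {w | 0 < w.re} :=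
    (Real.contDiff_cos.comp (contDiff_const.mul contDiff_im)).contDiffOn
  have h2 : ContDiffOn ℝ ∞ (fun w : ℂ => Real.sin (2 * Real.pi * w.im)) {w | 0 < w.re} :=
    (Real.contDiff_sin.comp (contDiff_const.mul contDiff_im)).contDiffOn
  have h3 : Qm = fun w => ofRealCLM (Real.sqrt (w.re / Real.pi) *
      Real.cos (2 * Real.pi * w.im)) + I * ofRealCLM (Real.sqrt (w.re / Real.pi) *
      Real.sin (2 * Real.pi * w.im)) := by
    funext w
    unfold Qm
    generalize Real.sqrt (w.re / Real.pi) * Real.cos (2 * Real.pi * w.im) = A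
    generalize Real.sqrt (w.re / Real.pi) * Real.sin (2 * Real.pi * w.im) = B
    apply Complex.ext <;> simp
  rw [h3]
  exact (ofRealCLM.contDiff.comp_contDiffOn (h0.mul h1)).add
    (contDiffOn_const.mul (ofRealCLM.contDiff.comp_contDiffOn (h0.mul h2)))

theorem Qm_om1 {w : ℂ} (hw : 0 < w.re) : DifferentiableAt ℝ Qm w ∧
    ∀ u v, om1 (fderiv ℝ Qm w u) (fderiv ℝ Qm w v) = om1 u v := by
  have hp := Real.pi_pos
  have hq : 0 < w.re / Real.pi := div_pos hw hp
  have hs : 0 < Real.sqrt (w.re / Real.pi) := Real.sqrt_pos.2 hq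
  have hdiv : Dz (fun w => w.re / Real.pi) w (1 / Real.pi) 0 := by
    have h := (Dz_re w).mul (Dz_const (1 / Real.pi) w)
    have e : (fun w : ℂ => w.re * (1 / Real.pi)) = fun w : ℂ => w.re / Real.pi := by
      funext w; ring
    rw [e] at h
    exact h.congr (by ring) (by ring)
  have h0 := hdiv.comp (Real.hasDerivAt_sqrt hq.ne')
  have him := (Dz_const (2 * Real.pi) w).mul (Dz_im w)
  have hc := him.comp (Real.hasDerivAt_cos (2 * Real.pi * w.im))
  have hsn := him.comp (Real.hasDerivAt_sin (2 * Real.pi * w.im))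
  refine om1_of_jac (f := Qm) (h0.mul hc) (h0.mul hsn) ?_
  have h2 := Real.sin_sq_add_cos_sq (2 * Real.pi * w.im)
  generalize Real.cos (2 * Real.pi * w.im) = C at *
  generalize Real.sin (2 * Real.pi * w.im) = S at *
  generalize Real.sqrt (w.re / Real.pi) = q at *
  have e : (q * (-S * (2 * Real.pi * 0 + w.im * 0)) + C * (1 / (2 * q) * (1 / Real.pi))) *
      (q * (C * (2 * Real.pi * 1 + w.im * 0)) + S * (1 / (2 * q) * 0)) -
      (q * (-S * (2 * Real.pi * 1 + w.im * 0)) + C * (1 / (2 * q) * 0)) *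
      (q * (C * (2 * Real.pi * 0 + w.im * 0)) + S * (1 / (2 * q) * (1 / Real.pi))) =
      (2 * Real.pi * q * (1 / (2 * q) * (1 / Real.pi))) * (S ^ 2 + C ^ 2) := by
    ring
  refine Eq.trans ?_ (Eq.trans e ?_)
  · rfl
  · rw [h2]
    field_simp

end Q

end P209
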