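import Vale.Agent.P209.Fits

/-!
# P209: packing with a volume condition up to a dimensional constant
-/

open scoped ContDiff Topology
open Matrix

namespace P209

variable {n : ℕ}

/-- packing items of sizes `D^(J - j i)` into `N` bins of capacity `D^J` -/
theorem binpack {ι : Type} [Fintype ι] [DecidableEq ι] (D J N : ℕ) (hD : 1 ≤ D) (j : ι → ℕ)
    (hj : ∀ i, j i ≤ J) (s : Finset ι) :
    ∑ i ∈ s, D ^ (J - j i) ≤ N * D ^ J →
    ∃ p : ι → Option (Fin N), (∀ i ∈ s, p i ≠ none) ∧
      ∀ a : Fin N, ∑ i ∈ s with p i = some a, D ^ (J - j i) ≤ D ^ J := by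
  induction s using Finset.induction_on_max_value j with
  | empty =>
    intro _
    exact ⟨fun _ => none, by simp, by simp⟩
  | insert i0 s hi0 hmax ih =>
    intro hsum
    rw [Finset.sum_insert hi0] at hsum
    obtain ⟨p, hp1, hp2⟩ := ih (by omega)
    have hδ : 0 < D ^ (J - j i0) := pow_pos (by omega) _
    have hdvd : ∀ a : Fin N, D ^ (J - j i0) ∣ ∑ i ∈ s with p i = some a, D ^ (J - j i) := by
      intro a
      apply Finset.dvd_sum
      intro i hi
      apply pow_dvd_pow
      have := hmax i (Finset.mem_filter.1 hi).1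
      omega
    have hdC : D ^ (J - j i0) ∣ D ^ J := pow_dvd_pow _ (by omega)
    by_cases hex : ∃ a : Fin N, ∑ i ∈ s with p i = some a, D ^ (J - j i) + D ^ (J - j i0) ≤ D ^ J
    · obtain ⟨a, ha⟩ := hex
      refine ⟨Function.update p i0 (some a), ?_, ?_⟩
      · intro i hi
        by_cases h : i = i0
        · subst h; simp
        · rw [Function.update_of_ne h]
          exact hp1 i ((Finset.mem_insert.1 hi).resolve_left h)
      · intro c
        have hfil : ∑ i ∈ s with Function.update p i0 (some a) i = some c, D ^ (J - j i) =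
            ∑ i ∈ s with p i = some c, D ^ (J - j i) := by
          apply Finset.sum_congr _ fun _ _ => rfl
          apply Finset.filter_congr
          intro i hi
          have : i ≠ i0 := fun h => hi0 (h ▸ hi)
          rw [Function.update_of_ne this]
        rw [Finset.filter_insert]
        split_ifs with h
        · rw [Finset.sum_insert (by simp [hi0]), hfil]
          rw [Function.update_self] at h
          have : a = c := Option.some.inj h
          rw [← this]
          omega
        · rw [hfil]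
          exact hp2 c
    · exfalso
      push Not at hex
      have hfull : ∀ a : Fin N, ∑ i ∈ s with p i = some a, D ^ (J - j i) = D ^ J := by
        intro a
        have h1 := hex a
        have h2 := hp2 a
        obtain ⟨x, hx⟩ := hdvd a
        obtain ⟨y, hy⟩ := hdC
        rw [hx] at h1 h2 ⊢
        rw [hy] at h1 h2 ⊢
        have h3 : x ≤ y := Nat.le_of_mul_le_mul_left h2 hδ
        have h4 : y < x + 1 := by
          by_contra h5
          push Not at h5
          have := Nat.mul_le_mul_left (D ^ (J - j i0)) h5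
          rw [Nat.mul_add, Nat.mul_one] at this
          omega
        have : x = y := by omega
        rw [this]
      have htot : ∑ i ∈ s, D ^ (J - j i) = N * D ^ J := by
        have h1 : ∑ i ∈ s, D ^ (J - j i) =
            ∑ a : Fin N, ∑ i ∈ s with p i = some a, D ^ (J - j i) := by
          rw [← Finset.sum_fiberwise_of_maps_to (t := (Finset.univ : Finset (Option (Fin N))))
            (g := p) (fun i _ => Finset.mem_univ _)]
          rw [Fintype.sum_option]
          have h0 : ∑ i ∈ s with p i = none, D ^ (J - j i) = 0 := by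
            apply Finset.sum_eq_zero
            intro i hi
            exact absurd (Finset.mem_filter.1 hi).2 (hp1 i (Finset.mem_filter.1 hi).1)
          rw [h0, zero_add]
        rw [h1, Finset.sum_congr rfl fun a _ => hfull a]
        simp
      omega

theorem fits_levels (hn : 0 < n) : ∀ (J : ℕ) {ι : Type} [Fintype ι] (j : ι → ℕ)
    (_ : ∀ i, j i ≤ J) (_ : ∑ i, (2 ^ n) ^ (J - j i) ≤ (2 ^ n) ^ J) {b : ℝ} (_ : 0 < b),
    Fits n b (fun i => b / 2 ^ (j i)) := by
  intro J
  induction J with
  | zero =>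
    intro ι _ j hj h b hb
    have hcard : Fintype.card ι ≤ 1 := by simpa using h
    have : Subsingleton ι := Fintype.card_le_one_iff_subsingleton.1 hcard
    have e : (fun i => b / 2 ^ (j i)) = fun _ : ι => b := by
      funext i
      have : j i = 0 := by have := hj i; omega
      rw [this]; simp
    rw [e]
    exact fits_self b
  | succ J ih =>
    intro ι _ j hj h b hb
    classical
    have hD : 1 ≤ 2 ^ n := Nat.one_le_two_pow
    by_cases hex : ∃ i, j i = 0
    · obtain ⟨i0, hi0⟩ := hex
      have hsub : ∀ i, i = i0 := by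
        intro i
        by_contra hi
        have h1 : ∑ l ∈ ({i0, i} : Finset ι), (2 ^ n) ^ (J + 1 - j l) ≤
            ∑ l, (2 ^ n) ^ (J + 1 - j l) :=
          Finset.sum_le_sum_of_subset (Finset.subset_univ _)
        rw [Finset.sum_pair (Ne.symm hi), hi0] at h1
        have h2 : 0 < (2 ^ n) ^ (J + 1 - j i) := pow_pos (by omega) _
        simp only [Nat.sub_zero] at h1
        omega
      have : Subsingleton ι := ⟨fun a c => (hsub a).trans (hsub c).symm⟩
      have e : (fun i => b / 2 ^ (j i)) = fun _ : ι => b := by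
        funext i
        rw [hsub i, hi0]; simp
      rw [e]
      exact fits_self b
    · push Not at hex
      have hj1 : ∀ i, 1 ≤ j i := fun i => Nat.one_le_iff_ne_zero.2 (hex i)
      have hsum : ∑ i ∈ (Finset.univ : Finset ι), (2 ^ n) ^ (J - (j i - 1)) ≤
          2 ^ n * (2 ^ n) ^ J := by
        rw [← pow_succ']
        refine le_trans (le_of_eq ?_) h
        apply Finset.sum_congr rfl
        intro i _
        congr 1
        have := hj1 i
        omega
      obtain ⟨p, hp1, hp2⟩ := binpack (2 ^ n) J (2 ^ n) hD (fun i => j i - 1)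
        (fun i => by have := hj i; omega) Finset.univ hsum
      have hp3 : ∀ i, ∃ a, p i = some a := fun i =>
        Option.ne_none_iff_exists'.1 (hp1 i (Finset.mem_univ i))
      choose q hq using hp3
      have hb2 : 0 < b / 2 := by linarith
      have hgrid := fits_grid hn hb2 2
      have hcard : Fintype.card (Fin (2 ^ n)) = Fintype.card (Fin n → Fin 2) := by simp
      have hgrid2 := hgrid.reindex (Fintype.equivOfCardEq hcard)
        (Fintype.equivOfCardEq hcard).injective
      have e : b / 2 * (2 : ℕ) = b := by push_cast; ring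
      rw [e] at hgrid2
      refine hgrid2.refine q ?_
      intro a
      have hlev := ih (ι := {k : ι // q k = a}) (fun k => j k.1 - 1)
        (fun k => by have := hj k.1; omega) (by
          refine le_trans (le_of_eq ?_) (hp2 a)
          exact (Finset.sum_subtype (Finset.univ.filter fun i => p i = some a)
            (p := fun k => q k = a) (fun x => by simp [hq])
            (fun i => (2 ^ n) ^ (J - (j i - 1)))).symm) hb2
      have e2 : (fun k : {k : ι // q k = a} => b / 2 / 2 ^ (j k.1 - 1)) =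
          fun k : {k : ι // q k = a} => b / 2 ^ (j k.1) := by
        funext k
        have : j k.1 = (j k.1 - 1) + 1 := by have := hj1 k.1; omega
        conv_rhs => rw [this, pow_succ']
        field_simp
      rw [e2] at hlev
      exact hlev

theorem fits_family (hn : 0 < n) {k m : ℕ} {R b : ℝ} (hb : 0 < b) (hmb : b * (m + 1) ≤ R)
    (i0 : Fin k) (j : Fin k → ℕ)
    (h : ∑ i ∈ Finset.univ.erase i0, 1 / ((2 : ℝ) ^ (j i)) ^ n ≤ ((m : ℝ) + 1) ^ n - (m : ℝ) ^ n) :
    Fits n R (fun i => if i = i0 then R - b else b / 2 ^ (j i)) := by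
  classical
  obtain ⟨J, hJ⟩ : ∃ J, ∀ i, j i ≤ J :=
    ⟨Finset.univ.sup j, fun i => Finset.le_sup (Finset.mem_univ i)⟩
  set N := Fintype.card (TopW n (m + 1)) with hN
  have hNr : ((m : ℝ) + 1) ^ n - (m : ℝ) ^ n ≤ N := by
    have := card_TopW n m
    have : (((m + 1) ^ n : ℕ) : ℝ) ≤ ((N + m ^ n : ℕ) : ℝ) := by exact_mod_cast this
    push_cast at this
    linarith
  have hD : 1 ≤ 2 ^ n := Nat.one_le_two_pow
  have hsum : ∑ i ∈ Finset.univ.erase i0, (2 ^ n) ^ (J - j i) ≤ N * (2 ^ n) ^ J := by
    have h1 : ((∑ i ∈ Finset.univ.erase i0, (2 ^ n) ^ (J - j i) : ℕ) : ℝ) ≤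
        ((N * (2 ^ n) ^ J : ℕ) : ℝ) := by
      push_cast
      have h2 : ∑ i ∈ Finset.univ.erase i0, ((2 : ℝ) ^ n) ^ (J - j i) =
          (∑ i ∈ Finset.univ.erase i0, 1 / ((2 : ℝ) ^ (j i)) ^ n) * ((2 : ℝ) ^ n) ^ J := by
        rw [Finset.sum_mul]
        apply Finset.sum_congr rfl
        intro i _
        have e : ((2 : ℝ) ^ n) ^ J = ((2 : ℝ) ^ n) ^ (J - j i) * ((2 : ℝ) ^ (j i)) ^ n := by
          rw [← pow_mul (2 : ℝ) (j i) n, mul_comm (j i) n, pow_mul, ← pow_add]
          congr 1
          have := hJ i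
          omega
        rw [e]
        have : (0 : ℝ) < ((2 : ℝ) ^ (j i)) ^ n := by positivity
        field_simp
      rw [h2]
      apply mul_le_mul_of_nonneg_right (h.trans hNr)
      positivity
    exact_mod_cast h1
  obtain ⟨p, hp1, hp2⟩ := binpack (2 ^ n) J N hD j hJ (Finset.univ.erase i0) hsum
  have heq : Fintype.card (Fin N) = Fintype.card (TopW n (m + 1)) := by simp [hN]
  set E := Fintype.equivOfCardEq heq with hE
  set P : Fin k → Option (TopW n (m + 1)) := fun i => if i = i0 then none else (p i).map E with hP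
  refine (fits_shell hn hb hmb).refine P ?_
  intro o
  cases o with
  | none =>
    have h1 : ∀ i, P i = none → i = i0 := by
      intro i hi
      by_contra hne
      have h2 := hp1 i (Finset.mem_erase.2 ⟨hne, Finset.mem_univ i⟩)
      rw [hP] at hi
      simp only [if_neg hne, Option.map_eq_none_iff] at hi
      exact h2 hi
    have hs : Subsingleton {k' : Fin k // P k' = none} :=
      ⟨fun a c => Subtype.ext ((h1 a.1 a.2).trans (h1 c.1 c.2).symm)⟩
    have e : (fun k' : {k' : Fin k // P k' = none} =>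
        if k'.1 = i0 then R - b else b / 2 ^ (j k'.1)) = fun _ => R - b := by
      funext k'
      rw [if_pos (h1 k'.1 k'.2)]
    show Fits n (R - b) (fun k' : {k' : Fin k // P k' = none} =>
        if k'.1 = i0 then R - b else b / 2 ^ (j k'.1))
    rw [e]
    exact fits_self _
  | some c =>
    have h1 : ∀ i, P i = some c ↔ i ≠ i0 ∧ p i = some (E.symm c) := by
      intro i
      rw [hP]
      by_cases hi : i = i0
      · simp [hi]
      · show (if i = i0 then none else Option.map (⇑E) (p i)) = some c ↔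
          i ≠ i0 ∧ p i = some (E.symm c)
        rw [if_neg hi]
        cases hpi : p i with
        | none => simp
        | some a =>
          simp only [Option.map_some, Option.some.injEq, ne_eq, hi, not_false_eq_true, true_and]
          exact (Equiv.eq_symm_apply E).symm
    have e : (fun k' : {k' : Fin k // P k' = some c} =>
        if k'.1 = i0 then R - b else b / 2 ^ (j k'.1)) =
        fun k' : {k' : Fin k // P k' = some c} => b / 2 ^ (j k'.1) := by
      funext k'
      rw [if_neg ((h1 k'.1).1 k'.2).1]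
    show Fits n b (fun k' : {k' : Fin k // P k' = some c} =>
        if k'.1 = i0 then R - b else b / 2 ^ (j k'.1))
    rw [e]
    apply fits_levels hn J (fun k' : {k' : Fin k // P k' = some c} => j k'.1)
      (fun k' => hJ k'.1) _ hb
    refine le_trans (le_of_eq ?_) (hp2 (E.symm c))
    exact (Finset.sum_subtype
      ((Finset.univ.erase i0).filter fun i => p i = some (E.symm c))
      (p := fun k' => P k' = some c) (fun x => by rw [h1]; simp)
      (fun i => (2 ^ n) ^ (J - j i))).symm

theorem exists_level {b r : ℝ} (hr0 : 0 < r) (hr : r < b) :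
    ∃ j : ℕ, r < b / 2 ^ j ∧ b / 2 ^ j ≤ 2 * r := by
  have hb : 0 < b := hr0.trans hr
  have hex : ∃ j : ℕ, b / 2 ^ (j + 1) ≤ r := by
    obtain ⟨j, hj⟩ := pow_unbounded_of_one_lt (b / r) (one_lt_two)
    refine ⟨j, ?_⟩
    rw [div_le_iff₀ (by positivity)]
    rw [div_lt_iff₀ hr0] at hj
    have : (2 : ℝ) ^ (j + 1) = 2 * 2 ^ j := by ring
    nlinarith [pow_pos (two_pos : (0 : ℝ) < 2) j]
  classical
  have h1 := Nat.find_spec hex
  refine ⟨Nat.find hex, ?_, ?_⟩
  · rcases Nat.eq_zero_or_pos (Nat.find hex) with h0 | h0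
    · rw [h0]; simpa using hr
    · have h2 := Nat.find_min hex (m := Nat.find hex - 1) (by omega)
      push Not at h2
      rwa [Nat.sub_add_cancel h0] at h2
  · rw [pow_succ, ← div_div, div_le_iff₀ two_pos] at h1
    linarith

theorem packs_volume (hn : 0 < n) {k m : ℕ} {R : ℝ} {r : Fin k → ℝ} (i0 : Fin k)
    (hr : ∀ i, 0 < r i) (hR : r i0 < R) (hpair : ∀ i j, i ≠ j → r i + r j < R)
    (hm : ((m : ℝ) + 1) * (R - r i0) ≤ R)
    (hvol : ∑ i ∈ Finset.univ.erase i0, (2 * r i) ^ n <
      (((m : ℝ) + 1) ^ n - (m : ℝ) ^ n) * (R - r i0) ^ n) : Packs n k R r := by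
  classical
  have hT : 0 < R - r i0 := by linarith
  have h1 : ∀ᶠ b in 𝓝[<] (R - r i0), ∀ j, j ≠ i0 → r j < b := by
    rw [Filter.eventually_all]
    intro j
    by_cases hj : j = i0
    · exact Filter.Eventually.of_forall fun b hb => absurd hj hb
    · filter_upwards [Ioo_mem_nhdsLT (show r j < R - r i0 by have := hpair j i0 hj; linarith)]
        with b hb _
      exact hb.1
  have h2 : ∀ᶠ b in 𝓝[<] (R - r i0), b ∈ Set.Ioo 0 (R - r i0) := Ioo_mem_nhdsLT hT
  have h3 : ∀ᶠ b in 𝓝[<] (R - r i0), ∑ i ∈ Finset.univ.erase i0, (2 * r i) ^ n <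
      (((m : ℝ) + 1) ^ n - (m : ℝ) ^ n) * b ^ n := by
    apply Filter.Eventually.filter_mono nhdsWithin_le_nhds
    have hc : ContinuousAt (fun b : ℝ => (((m : ℝ) + 1) ^ n - (m : ℝ) ^ n) * b ^ n)
      (R - r i0) := by fun_prop
    exact hc.eventually (lt_mem_nhds hvol)
  obtain ⟨b, ⟨hb1, hb2⟩, hb3⟩ := ((h1.and h2).and h3).exists
  have hb0 := hb2.1
  have hlev : ∀ i, ∃ j : ℕ, i ≠ i0 → r i < b / 2 ^ j ∧ b / 2 ^ j ≤ 2 * r i := by
    intro i
    by_cases hi : i = i0
    · exact ⟨0, fun h => absurd hi h⟩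
    · obtain ⟨j, hj⟩ := exists_level (hr i) (hb1 i hi)
      exact ⟨j, fun _ => hj⟩
  choose j hj using hlev
  have hfit := fits_family hn (R := R) hb0 (m := m) (by
    have : b * (m + 1) ≤ (R - r i0) * (m + 1) := by
      apply mul_le_mul_of_nonneg_right hb2.2.le; positivity
    linarith) i0 j (by
    have h4 : ∑ i ∈ Finset.univ.erase i0, 1 / ((2 : ℝ) ^ (j i)) ^ n ≤
        ∑ i ∈ Finset.univ.erase i0, (2 * r i) ^ n / b ^ n := by
      apply Finset.sum_le_sum
      intro i hi
      have h5 := (hj i (Finset.mem_erase.1 hi).1).2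
      rw [div_le_div_iff₀ (by positivity) (by positivity), one_mul, ← mul_pow]
      apply pow_le_pow_left₀ hb0.le
      rw [div_le_iff₀ (by positivity)] at h5
      exact h5
    refine h4.trans ?_
    rw [← Finset.sum_div, div_le_iff₀ (by positivity)]
    exact hb3.le)
  apply packs_of_fits hfit
  intro i
  by_cases hi : i = i0
  · rw [hi, if_pos rfl]; linarith [hb2.2]
  · rw [if_neg hi]
    exact (hj i hi).1

theorem pow_diff_mono (n : ℕ) : ∀ {s t : ℝ}, 1 ≤ t → t ≤ s →
    t ^ n - (t - 1) ^ n ≤ s ^ n - (s - 1) ^ n ∧ 0 ≤ t ^ n - (t - 1) ^ n := by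
  induction n with
  | zero => intro s t _ _; simp
  | succ n ih =>
    intro s t ht hs
    obtain ⟨h1, h2⟩ := ih ht hs
    have h3 : (t - 1) ^ n ≤ (s - 1) ^ n := pow_le_pow_left₀ (by linarith) (by linarith) n
    have h4 : 0 ≤ (t - 1) ^ n := pow_nonneg (by linarith) n
    have e1 : t ^ (n + 1) - (t - 1) ^ (n + 1) = t * (t ^ n - (t - 1) ^ n) + (t - 1) ^ n := by ring
    have e2 : s ^ (n + 1) - (s - 1) ^ (n + 1) = s * (s ^ n - (s - 1) ^ n) + (s - 1) ^ n := by ring
    rw [e1, e2]
    constructor
    · have : t * (t ^ n - (t - 1) ^ n) ≤ s * (s ^ n - (s - 1) ^ n) :=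
        mul_le_mul hs h1 h2 (by linarith)
      linarith
    · have : 0 ≤ t * (t ^ n - (t - 1) ^ n) := mul_nonneg (by linarith) h2
      linarith

/-- the two-ball condition and a volume condition with a dimensional constant suffice -/
theorem packs_const (hn : 0 < n) {k : ℕ} {R : ℝ} {r : Fin k → ℝ} (i0 : Fin k)
    (hr : ∀ i, 0 < r i) (hR : r i0 < R) (hpair : ∀ i j, i ≠ j → r i + r j < R)
    (hvol : 4 ^ n * ∑ i ∈ Finset.univ.erase i0, r i ^ n < R ^ n - r i0 ^ n) : Packs n k R r := by
  set b := R - r i0 with hbd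
  have hb : 0 < b := by rw [hbd]; linarith
  have hR0 : 0 < R := (hr i0).trans hR
  set μ := R / b with hμ
  have hμ1 : 1 ≤ μ := by
    rw [hμ, one_le_div hb]; have := hr i0; linarith
  obtain ⟨m, hm⟩ : ∃ m : ℕ, ⌊μ⌋₊ = m + 1 :=
    ⟨⌊μ⌋₊ - 1, (Nat.sub_add_cancel (Nat.le_floor (by simpa using hμ1) : 1 ≤ ⌊μ⌋₊)).symm⟩
  have hfl : ((m : ℝ) + 1) ≤ μ := by
    have := Nat.floor_le (show 0 ≤ μ by linarith)
    rw [hm] at this; push_cast at this; exact this
  have hfu : μ < (m : ℝ) + 2 := by
    have := Nat.lt_floor_add_one μ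
    rw [hm] at this; push_cast at this; linarith
  have hRb : R = μ * b := by rw [hμ]; field_simp
  apply packs_volume (m := m) hn i0 hr hR hpair
  · rw [← hbd]
    calc ((m : ℝ) + 1) * b ≤ μ * b := mul_le_mul_of_nonneg_right hfl hb.le
      _ = R := hRb.symm
  · rw [← hbd]
    have h1 : R ^ n - r i0 ^ n = (μ ^ n - (μ - 1) ^ n) * b ^ n := by
      have e : r i0 = (μ - 1) * b := by rw [sub_mul, ← hRb, hbd]; ring
      rw [e, hRb, mul_pow, mul_pow]; ring
    have h2 : μ ^ n - (μ - 1) ^ n ≤ ((m : ℝ) + 2) ^ n - ((m : ℝ) + 1) ^ n := by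
      have := (pow_diff_mono n hμ1 hfu.le).1
      have e : (m : ℝ) + 2 - 1 = m + 1 := by ring
      rw [e] at this
      exact this
    have h3 : ((m : ℝ) + 2) ^ n - ((m : ℝ) + 1) ^ n ≤
        2 ^ n * (((m : ℝ) + 1) ^ n - (m : ℝ) ^ n) := by
      have hm0 : (0 : ℝ) ≤ m := Nat.cast_nonneg m
      have h4 := (pow_diff_mono n (s := 2 * (m : ℝ) + 2) (t := (m : ℝ) + 2) (by linarith)
        (by linarith)).1
      have e1 : (m : ℝ) + 2 - 1 = m + 1 := by ring
      have e2 : 2 * (m : ℝ) + 2 - 1 = 2 * m + 1 := by ring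
      rw [e1, e2] at h4
      have h5 : (2 * (m : ℝ)) ^ n ≤ (2 * (m : ℝ) + 1) ^ n :=
        pow_le_pow_left₀ (by positivity) (by linarith) n
      have e3 : (2 : ℝ) ^ n * (((m : ℝ) + 1) ^ n - (m : ℝ) ^ n) =
          (2 * (m : ℝ) + 2) ^ n - (2 * (m : ℝ)) ^ n := by
        rw [mul_sub, ← mul_pow, ← mul_pow]; ring_nf
      rw [e3]
      linarith
    have h6 : (2 : ℝ) ^ n * ∑ i ∈ Finset.univ.erase i0, (2 * r i) ^ n =
        4 ^ n * ∑ i ∈ Finset.univ.erase i0, r i ^ n := by
      rw [Finset.mul_sum, Finset.mul_sum]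
      apply Finset.sum_congr rfl
      intro i _
      rw [← mul_pow, ← mul_pow]
      ring
    have h7 : (2 : ℝ) ^ n * ∑ i ∈ Finset.univ.erase i0, (2 * r i) ^ n <
        2 ^ n * ((((m : ℝ) + 1) ^ n - (m : ℝ) ^ n) * b ^ n) := by
      rw [h6]
      refine lt_of_lt_of_le hvol ?_
      rw [h1, ← mul_assoc]
      exact mul_le_mul_of_nonneg_right (h2.trans h3) (by positivity)
    exact lt_of_mul_lt_mul_left h7 (by positivity)

end P209
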